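import Mathlib

/-!
Grand-canonical sums with a two-point kernel, on the point space of dimension three.
-/

namespace Vale.Agent.P171

open MeasureTheory Real Set
open scoped ENNReal Classical

noncomputable section

/-- The point space. -/
abbrev Pt := EuclideanSpace ℝ (Fin 3)

variable {ι κ : Type} [Fintype ι] [Fintype κ]

/-- Log weight of a configuration. -/
def logW (t : ℝ) (K : Pt → Pt → ℝ) (x : ι → Pt) : ℝ :=
  ∑ i, (t + ∑ k, K (x i) (x k))

/-- Weight of a configuration. -/
def wt (t : ℝ) (K : Pt → Pt → ℝ) (x : ι → Pt) : ℝ≥0∞ :=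
  ENNReal.ofReal (exp (logW t K x))

/-- Configuration integral over labels `ι` in the region `A`. -/
def cInt (ι : Type) [Fintype ι] (A : Set Pt) (t : ℝ) (K : Pt → Pt → ℝ) : ℝ≥0∞ :=
  ∫⁻ x in Set.univ.pi (fun _ : ι => A), wt t K x

/-- Grand-canonical sum over the region `A`. -/
def gc (A : Set Pt) (t : ℝ) (K : Pt → Pt → ℝ) : ℝ≥0∞ :=
  ∑' n : ℕ, ((n.factorial : ℝ≥0∞))⁻¹ * cInt (Fin n) A t K

lemma logW_eq (t : ℝ) (K : Pt → Pt → ℝ) (x : ι → Pt) :
    logW t K x = t * (Fintype.card ι) + ∑ i, ∑ k, K (x i) (x k) := by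
  simp [logW, Finset.sum_add_distrib, mul_comm]

lemma measurable_logW (t : ℝ) {K : Pt → Pt → ℝ} (hK : Measurable (Function.uncurry K)) :
    Measurable fun x : ι → Pt => logW t K x := by
  unfold logW
  refine Finset.measurable_fun_sum _ fun i _ => measurable_const.add ?_
  refine Finset.measurable_fun_sum _ fun k _ => ?_
  have h : Measurable fun x : ι → Pt => (x i, x k) :=
    (measurable_pi_apply i).prodMk (measurable_pi_apply k)
  exact hK.comp h

lemma measurable_wt (t : ℝ) {K : Pt → Pt → ℝ} (hK : Measurable (Function.uncurry K)) :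
    Measurable fun x : ι → Pt => wt t K x :=
  (measurable_exp.comp (measurable_logW t hK)).ennreal_ofReal

lemma logW_comp (e : κ ≃ ι) (t : ℝ) (K : Pt → Pt → ℝ) (x : ι → Pt) :
    logW t K (fun i => x (e i)) = logW t K x := by
  unfold logW
  rw [← e.sum_comp]
  refine Finset.sum_congr rfl fun i _ => ?_
  rw [← e.sum_comp (fun k => K (x (e i)) (x k))]

lemma cInt_congr (e : κ ≃ ι) (A : Set Pt) (t : ℝ) (K : Pt → Pt → ℝ) :
    cInt ι A t K = cInt κ A t K := by
  have h := volume_measurePreserving_piCongrLeft (fun _ : ι => Pt) e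
  unfold cInt
  rw [← h.setLIntegral_comp_preimage_emb (MeasurableEquiv.measurableEmbedding _)]
  have hpre : (MeasurableEquiv.piCongrLeft (fun _ : ι => Pt) e) ⁻¹' (Set.univ.pi fun _ => A)
      = Set.univ.pi fun _ => A := by
    ext x
    simp only [mem_preimage, mem_univ_pi, MeasurableEquiv.coe_piCongrLeft]
    refine ⟨fun hx i => ?_, fun hx i => ?_⟩
    · simpa [Equiv.piCongrLeft_apply_apply] using hx (e i)
    · obtain ⟨j, rfl⟩ := e.surjective i
      simpa [Equiv.piCongrLeft_apply_apply] using hx j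
  rw [hpre]
  refine lintegral_congr fun x => ?_
  unfold wt
  rw [← logW_comp e t K ((MeasurableEquiv.piCongrLeft (fun _ : ι => Pt) e) x)]
  congr 2
  refine congrArg (logW t K) (funext fun i => ?_)
  simp [MeasurableEquiv.coe_piCongrLeft, Equiv.piCongrLeft_apply_apply]

lemma cInt_eq_fin (A : Set Pt) (t : ℝ) (K : Pt → Pt → ℝ) :
    cInt ι A t K = cInt (Fin (Fintype.card ι)) A t K :=
  cInt_congr (Fintype.equivFin ι).symm A t K

lemma one_le_gc (A : Set Pt) (t : ℝ) (K : Pt → Pt → ℝ) : 1 ≤ gc A t K := by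
  refine le_trans ?_ (ENNReal.le_tsum 0)
  have : (Set.univ.pi fun _ : Fin 0 => A) = Set.univ := by ext x; simp
  simp [cInt, this, wt, logW, volume_pi]

lemma gc_mono_set {A B : Set Pt} (h : A ⊆ B) (t : ℝ) (K : Pt → Pt → ℝ) :
    gc A t K ≤ gc B t K := by
  refine ENNReal.tsum_le_tsum fun n => ?_
  gcongr
  exact lintegral_mono_set (Set.pi_mono fun _ _ => h)

lemma measurableSet_conf {A : Set Pt} (hA : MeasurableSet A) :
    MeasurableSet (Set.univ.pi fun _ : ι => A) :=
  MeasurableSet.univ_pi fun _ => hA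

/-- The set of configurations with two points in the same place is null. -/
lemma ae_injective : ∀ᵐ x : ι → Pt, Function.Injective x := by
  have h : ∀ i k : ι, i ≠ k → ∀ᵐ x : ι → Pt, x i ≠ x k := by
    intro i k hik
    let S : Submodule ℝ (ι → Pt) :=
      LinearMap.ker ((LinearMap.proj i : (ι → Pt) →ₗ[ℝ] Pt) - LinearMap.proj k)
    have hS : S ≠ ⊤ := by
      intro htop
      obtain ⟨v, hv⟩ := exists_ne (0 : Pt)
      have : Pi.single i v ∈ S := htop ▸ Submodule.mem_top
      simp [S, Pi.single_eq_of_ne (Ne.symm hik)] at this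
      exact hv this
    have h0 := Measure.addHaar_submodule (volume : Measure (ι → Pt)) S hS
    rw [ae_iff]
    refine measure_mono_null (fun x hx => ?_) h0
    simp only [ne_eq, not_not, mem_ofPred_eq] at hx
    simp [S, hx]
  have h' : ∀ᵐ x : ι → Pt, ∀ i k : ι, i ≠ k → x i ≠ x k := by
    rw [ae_all_iff]; intro i; rw [ae_all_iff]; intro k
    by_cases hik : i = k
    · simp [hik]
    · filter_upwards [h i k hik] with x hx _ using hx
  filter_upwards [h'] with x hx i k hik
  by_contra hne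
  exact hx i k hne hik

/-- Monotonicity, with a configuration-wise hypothesis off the diagonals. -/
lemma gc_mono {A : Set Pt} (hA : MeasurableSet A) {t t' : ℝ} {K K' : Pt → Pt → ℝ}
    (h : ∀ (n : ℕ) (x : Fin n → Pt), Function.Injective x → (∀ i, x i ∈ A) →
      logW t K x ≤ logW t' K' x) :
    gc A t K ≤ gc A t' K' := by
  refine ENNReal.tsum_le_tsum fun n => ?_
  gcongr
  refine lintegral_mono_ae ?_
  rw [ae_restrict_iff' (measurableSet_conf hA)]
  filter_upwards [ae_injective] with x hx hmem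
  exact ENNReal.ofReal_le_ofReal
    (exp_le_exp.mpr (h n x hx fun i => hmem i (mem_univ i)))

/-- Monotonicity with finitely many alternatives. -/
lemma gc_le_sum {A : Set Pt} (hA : MeasurableSet A) {γ : Type} (s : Finset γ) {t : ℝ}
    {K : Pt → Pt → ℝ} {t' : γ → ℝ} {K' : γ → Pt → Pt → ℝ}
    (hK' : ∀ u, Measurable (Function.uncurry (K' u)))
    (h : ∀ (n : ℕ) (x : Fin n → Pt), Function.Injective x → (∀ i, x i ∈ A) →
      ∃ u ∈ s, logW t K x ≤ logW (t' u) (K' u) x) :
    gc A t K ≤ ∑ u ∈ s, gc A (t' u) (K' u) := by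
  unfold gc
  rw [← Summable.tsum_finsetSum (fun u _ => ENNReal.summable)]
  refine ENNReal.tsum_le_tsum fun n => ?_
  rw [← Finset.mul_sum]
  gcongr
  unfold cInt
  rw [← lintegral_finsetSum' _ (fun u _ => (measurable_wt (t' u) (hK' u)).aemeasurable)]
  refine lintegral_mono_ae ?_
  rw [ae_restrict_iff' (measurableSet_conf hA)]
  filter_upwards [ae_injective] with x hx hmem
  obtain ⟨u, hu, hle⟩ := h n x hx fun i => hmem i (mem_univ i)
  exact le_trans (ENNReal.ofReal_le_ofReal (exp_le_exp.mpr hle))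
    (Finset.single_le_sum (f := fun u => wt (t' u) (K' u) x) (fun _ _ => zero_le) hu)

/-- Translation invariance. -/
lemma gc_translate (A : Set Pt) (v : Pt) (t : ℝ) {K : Pt → Pt → ℝ}
    {K' : Pt → Pt → ℝ} (h : ∀ p q, K (p + v) (q + v) = K' p q) :
    gc A t K = gc ((fun p => p + v) ⁻¹' A) t K' := by
  refine tsum_congr fun n => ?_
  congr 1
  unfold cInt
  have hp : MeasurePreserving (fun x : Fin n → Pt => x + fun _ => v) volume volume :=
    measurePreserving_add_right volume _
  rw [← hp.setLIntegral_comp_preimage_emb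
    (MeasurableEquiv.addRight (fun _ : Fin n => v)).measurableEmbedding]
  have hpre : (fun x : Fin n → Pt => x + fun _ => v) ⁻¹' (Set.univ.pi fun _ => A)
      = Set.univ.pi fun _ => (fun p => p + v) ⁻¹' A := by
    ext x; simp
  rw [hpre]
  refine lintegral_congr fun x => ?_
  simp [wt, logW, h]

/-- Convexity (Hölder) bound. -/
lemma gc_convex {A : Set Pt} (hA : MeasurableSet A) {t t₁ t₂ : ℝ}
    {K K₁ K₂ : Pt → Pt → ℝ} (h₁ : Measurable (Function.uncurry K₁))
    (h₂ : Measurable (Function.uncurry K₂)) {τ p q : ℝ} (hτ0 : 0 ≤ τ) (hτ1 : τ ≤ 1)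
    (hp : gc A t₁ K₁ ≤ ENNReal.ofReal (exp p)) (hq : gc A t₂ K₂ ≤ ENNReal.ofReal (exp q))
    (h : ∀ (n : ℕ) (x : Fin n → Pt), Function.Injective x → (∀ i, x i ∈ A) →
      logW t K x ≤ (1 - τ) * logW t₁ K₁ x + τ * logW t₂ K₂ x) :
    gc A t K ≤ ENNReal.ofReal (exp ((1 - τ) * p + τ * q)) := by
  set r := (1 - τ) * p + τ * q with hr
  set a := ENNReal.ofReal ((1 - τ) * exp (r - p)) with ha
  set b := ENNReal.ofReal (τ * exp (r - q)) with hb
  have hkey : ∀ n : ℕ, cInt (Fin n) A t K
      ≤ a * cInt (Fin n) A t₁ K₁ + b * cInt (Fin n) A t₂ K₂ := by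
    intro n
    unfold cInt
    rw [← lintegral_const_mul a (measurable_wt t₁ h₁),
      ← lintegral_const_mul b (measurable_wt t₂ h₂),
      ← lintegral_add_left ((measurable_wt t₁ h₁).const_mul a)]
    refine lintegral_mono_ae ?_
    rw [ae_restrict_iff' (measurableSet_conf hA)]
    filter_upwards [ae_injective] with x hx hmem
    set u := logW t₁ K₁ x
    set w := logW t₂ K₂ x
    have hle := h n x hx fun i => hmem i (mem_univ i)
    have hexp : exp (logW t K x) ≤ (1 - τ) * exp (r - p) * exp u + τ * exp (r - q) * exp w := by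
      refine le_trans (exp_le_exp.mpr hle) ?_
      have hc := convexOn_exp.2 (mem_univ (r - p + u)) (mem_univ (r - q + w))
        (sub_nonneg.mpr hτ1) hτ0 (by ring)
      simp only [smul_eq_mul] at hc
      have e : (1 - τ) * (r - p + u) + τ * (r - q + w) = (1 - τ) * u + τ * w := by
        rw [hr]; ring
      rw [e] at hc
      rw [mul_assoc, mul_assoc, ← exp_add, ← exp_add]
      exact hc
    simp only [wt, ha, hb]
    rw [← ENNReal.ofReal_mul (by have := sub_nonneg.mpr hτ1; positivity),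
      ← ENNReal.ofReal_mul (by positivity),
      ← ENNReal.ofReal_add (by have := sub_nonneg.mpr hτ1; positivity) (by positivity)]
    exact ENNReal.ofReal_le_ofReal hexp
  calc gc A t K ≤ ∑' n : ℕ, (a * ((n.factorial : ℝ≥0∞)⁻¹ * cInt (Fin n) A t₁ K₁)
          + b * ((n.factorial : ℝ≥0∞)⁻¹ * cInt (Fin n) A t₂ K₂)) := by
        refine ENNReal.tsum_le_tsum fun n => ?_
        calc _ ≤ ((n.factorial : ℝ≥0∞)⁻¹) * (a * cInt (Fin n) A t₁ K₁ + b * cInt (Fin n) A t₂ K₂) := by
              gcongr; exact hkey n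
          _ = _ := by ring
    _ = a * gc A t₁ K₁ + b * gc A t₂ K₂ := by
        rw [ENNReal.tsum_add, ENNReal.tsum_mul_left, ENNReal.tsum_mul_left]; rfl
    _ ≤ a * ENNReal.ofReal (exp p) + b * ENNReal.ofReal (exp q) := by gcongr
    _ = ENNReal.ofReal (exp r) := by
        have := sub_nonneg.mpr hτ1
        rw [ha, hb, ← ENNReal.ofReal_mul (by positivity), ← ENNReal.ofReal_mul (by positivity),
          ← ENNReal.ofReal_add (by positivity) (by positivity), mul_assoc, mul_assoc,
          ← exp_add, ← exp_add]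
        congr 1
        simp only [sub_add_cancel]
        ring

/-- The sum of the volume series. -/
lemma gc_zero_le {A : Set Pt} {V : ℝ} (hV : 0 ≤ V) (hA : volume A ≤ ENNReal.ofReal V) (t : ℝ) :
    gc A t (fun _ _ => 0) ≤ ENNReal.ofReal (exp (V * exp t)) := by
  have hsum : ∑' n : ℕ, ENNReal.ofReal ((V * exp t) ^ n / n.factorial)
      = ENNReal.ofReal (exp (V * exp t)) := by
    rw [← ENNReal.ofReal_tsum_of_nonneg (fun n => by positivity)
      (Real.summable_pow_div_factorial _), Real.exp_eq_exp_ℝ, NormedSpace.exp_eq_tsum_div]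
  rw [← hsum]
  refine ENNReal.tsum_le_tsum fun n => ?_
  have hw : ∀ x : Fin n → Pt, wt t (fun _ _ => 0) x = ENNReal.ofReal (exp t ^ n) := by
    intro x; simp [wt, logW_eq, ← Real.exp_nat_mul, mul_comm]
  unfold cInt
  simp only [hw, setLIntegral_const, volume_pi_pi, Finset.prod_const, Finset.card_univ,
    Fintype.card_fin]
  calc ((n.factorial : ℝ≥0∞))⁻¹ * (ENNReal.ofReal (exp t ^ n) * volume A ^ n)
      ≤ ((n.factorial : ℝ≥0∞))⁻¹ * (ENNReal.ofReal (exp t ^ n) * ENNReal.ofReal V ^ n) := by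
        gcongr
    _ = ENNReal.ofReal ((V * exp t) ^ n / n.factorial) := by
        rw [← ENNReal.ofReal_pow hV, ← ENNReal.ofReal_mul (by positivity),
          ENNReal.ofReal_div_of_pos (by positivity), ENNReal.ofReal_natCast,
          ENNReal.div_eq_inv_mul, mul_pow, mul_comm (V ^ n)]

end

end Vale.Agent.P171
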