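import Mathlib

/-!
The variational principle of Ekeland, in the weak form that is needed.
-/

namespace Vale.Agent.P171

open Filter
open scoped Topology

lemma exists_almost_min {X : Type} [MetricSpace X] [CompleteSpace X] [Nonempty X]
    {f : X → ℝ} (hf : Continuous f) {c : ℝ} (hc : ∀ x, c ≤ f x) {ε : ℝ} (hε : 0 < ε) :
    ∃ x, ∀ y, f x ≤ f y + ε * dist x y := by
  classical
  set S : X → Set X := fun x => {y | f y + ε * dist x y ≤ f x} with hS
  have hrefl : ∀ x, x ∈ S x := fun x => by simp [hS]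
  have htrans : ∀ x y, y ∈ S x → S y ⊆ S x := by
    intro x y hy z hz
    simp only [hS, Set.mem_ofPred_eq] at hy hz ⊢
    have := mul_le_mul_of_nonneg_left (dist_triangle x y z) hε.le
    linarith
  have hclosed : ∀ x, IsClosed (S x) := fun x =>
    isClosed_le (hf.add (continuous_const.mul (continuous_const.dist continuous_id))) continuous_const
  have hbdd : ∀ x, BddBelow (f '' S x) := fun x => ⟨c, by rintro v ⟨y, -, rfl⟩; exact hc y⟩
  have hstep : ∀ (x : X) (n : ℕ), ∃ y ∈ S x, f y ≤ sInf (f '' S x) + ε * (1 / 2) ^ n := by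
    intro x n
    obtain ⟨v, ⟨y, hy, rfl⟩, hlt⟩ := exists_lt_of_csInf_lt (Set.Nonempty.image f ⟨x, hrefl x⟩)
      (lt_add_of_pos_right (sInf (f '' S x)) (by positivity : 0 < ε * (1 / 2 : ℝ) ^ n))
    exact ⟨y, hy, hlt.le⟩
  choose next hnext1 hnext2 using hstep
  let x₀ : X := Classical.arbitrary X
  let x : ℕ → X := fun n => Nat.rec x₀ (fun k xk => next xk k) n
  have hxs : ∀ n, x (n + 1) = next (x n) n := fun n => rfl
  have hsmall : ∀ n y, y ∈ S (x (n + 1)) → dist (x (n + 1)) y ≤ (1 / 2) ^ n := by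
    intro n y hy
    have hy' : y ∈ S (x n) := htrans _ _ (hxs n ▸ hnext1 (x n) n) hy
    have h1 := csInf_le (hbdd (x n)) ⟨y, hy', rfl⟩
    have h2 := hnext2 (x n) n
    simp only [hS, Set.mem_ofPred_eq] at hy
    rw [← hxs n] at h2
    exact le_of_mul_le_mul_left (by simp only [hS] at h1 h2 ⊢; linarith) hε
  have hcauchy : CauchySeq fun n => x (n + 1) := by
    refine cauchySeq_of_le_geometric (1 / 2) 1 (by norm_num) fun n => ?_
    rw [one_mul]
    exact hsmall n _ (hxs (n + 1) ▸ hnext1 (x (n + 1)) (n + 1))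
  obtain ⟨z, hz⟩ := cauchySeq_tendsto_of_complete hcauchy
  have hmem : ∀ n, z ∈ S (x (n + 1)) := by
    intro n
    refine (hclosed _).mem_of_tendsto hz ?_
    filter_upwards [eventually_ge_atTop n] with k hk
    induction k, hk using Nat.le_induction with
    | base => exact hrefl _
    | succ k hk ih => exact htrans _ _ ih (hxs (k + 1) ▸ hnext1 (x (k + 1)) (k + 1))
  refine ⟨z, fun y => ?_⟩
  by_contra h
  push Not at h
  have hy : y ∈ S z := h.le
  have hzero : Tendsto (fun n : ℕ => ((1 / 2 : ℝ)) ^ n) atTop (𝓝 0) :=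
    tendsto_pow_atTop_nhds_zero_of_lt_one (by norm_num) (by norm_num)
  have hlim : Tendsto (fun n => x (n + 1)) atTop (𝓝 y) :=
    tendsto_iff_dist_tendsto_zero.mpr (squeeze_zero (fun n => dist_nonneg)
      (fun n => hsmall n y (htrans _ _ (hmem n) hy)) hzero)
  have : z = y := tendsto_nhds_unique hz hlim
  subst this
  simp at h

end Vale.Agent.P171
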