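import Vale.Agent.P171.Pressure

/-!
The long weak direction and the configuration-wise block bound.
-/

namespace Vale.Agent.P171

open MeasureTheory Real
open scoped ENNReal Classical

noncomputable section

/-- The parameters of the long weak attraction of range `R`. -/
def kac (R : ℕ) : Par := ∑ j ∈ Finset.range (R + 1), lp.single 1 j (cnt j / (R : ℝ) ^ 3)

lemma kac_apply (R j : ℕ) : kac R j = if j ≤ R then cnt j / (R : ℝ) ^ 3 else 0 := by
  simp only [kac, lp.coeFn_sum, Finset.sum_apply, lp.single_apply, Pi.single_apply,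
    Finset.sum_ite_eq, Finset.mem_range, Nat.lt_succ_iff]

lemma kac_nonneg (R j : ℕ) : 0 ≤ kac R j := by
  have := cnt_pos j
  rw [kac_apply]; split_ifs <;> positivity

lemma norm_kac_le (R : ℕ) : ‖kac R‖ ≤ (∑ j ∈ Finset.range (R + 1), cnt j) / (R : ℝ) ^ 3 := by
  refine (norm_sum_le _ _).trans (le_of_eq ?_)
  rw [Finset.sum_div]
  refine Finset.sum_congr rfl fun j _ => ?_
  have := cnt_pos j
  rw [lp.norm_single (by norm_num), Real.norm_eq_abs, abs_of_nonneg (by positivity)]

lemma tent_partition {d : ℝ} (hd : 0 ≤ d) {N : ℕ} (hN : d + 2 ≤ N) :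
    ∑ j ∈ Finset.range N, tent j d = 1 := by
  set f := ⌊d⌋₊ with hf
  have h1 := Nat.floor_le hd
  have h2 := Nat.lt_floor_add_one d
  rw [← hf] at h1 h2
  have hfN : f + 1 < N := by
    have : (f : ℝ) + 1 < N := by linarith
    exact_mod_cast this
  rw [Finset.sum_eq_add_of_mem f (f + 1) (Finset.mem_range.mpr (by omega))
    (Finset.mem_range.mpr hfN) (by omega) (fun j _ hj => ?_)]
  · have e1 : tent f d = 1 - (d - f) := by
      rw [tent, abs_of_nonneg (by linarith), max_eq_left (by linarith)]
    have e2 : tent (f + 1) d = d - f := by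
      rw [tent, Nat.cast_add_one, abs_of_nonpos (by linarith), max_eq_left (by linarith)]; ring
    rw [e1, e2]; ring
  · refine tent_eq_zero ?_
    rcases Nat.lt_or_ge j f with h | h
    · have : (j : ℝ) + 1 ≤ f := by exact_mod_cast h
      rw [abs_of_nonneg (by linarith)]; linarith
    · have h3 : f + 2 ≤ j := by omega
      have : (f : ℝ) + 2 ≤ j := by exact_mod_cast h3
      rw [abs_of_nonpos (by linarith)]; linarith

lemma tent_sum_le_one {d : ℝ} (hd : 0 ≤ d) (N : ℕ) : ∑ j ∈ Finset.range N, tent j d ≤ 1 := by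
  have h := tent_partition hd (N := N + ⌈d⌉₊ + 2)
    (by have := Nat.le_ceil d; push_cast; linarith [Nat.cast_nonneg (α := ℝ) N])
  rw [← h]
  exact Finset.sum_le_sum_of_subset_of_nonneg (Finset.range_subset_range.mpr (by omega))
    fun j _ _ => tent_nonneg j d

lemma psi_kac (R : ℕ) (d : ℝ) :
    psi (kac R) d = (∑ j ∈ Finset.range (R + 1), tent j d) / (R : ℝ) ^ 3 := by
  rw [psi, tsum_eq_sum (s := Finset.range (R + 1)) fun j hj => ?_, Finset.sum_div]
  · refine Finset.sum_congr rfl fun j hj => ?_
    rw [kac_apply, if_pos (Nat.lt_succ_iff.mp (Finset.mem_range.mp hj))]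
    have := cnt_pos j
    field_simp
  · rw [kac_apply, if_neg (by simpa using hj)]; simp

lemma blk_bounds (l u : ℕ) (hl : 0 < l) (p : Pt) (i : Fin 3) :
    p i + u - l - 1 < (l : ℝ) * blk l u p i ∧ (l : ℝ) * blk l u p i ≤ p i + u := by
  have h1 := Int.mul_ediv_add_emod (⌊p i⌋ + u) (l : ℤ)
  have h2 := Int.emod_nonneg (⌊p i⌋ + u) (show (l : ℤ) ≠ 0 by omega)
  have h3 := Int.emod_lt_of_pos (⌊p i⌋ + u) (show (0 : ℤ) < l by omega)
  have a : ⌊p i⌋ + u - l + 1 ≤ (l : ℤ) * blk l u p i := by simp only [blk]; omega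
  have b : (l : ℤ) * blk l u p i ≤ ⌊p i⌋ + u := by simp only [blk]; omega
  have a' : (⌊p i⌋ : ℝ) + u - l + 1 ≤ (l : ℝ) * blk l u p i := by exact_mod_cast a
  have b' : (l : ℝ) * blk l u p i ≤ (⌊p i⌋ : ℝ) + u := by exact_mod_cast b
  have := Int.floor_le (p i)
  have := Int.lt_floor_add_one (p i)
  constructor <;> linarith

lemma kac_le_shift (k l u : ℕ) (hl : 3 ≤ l) (p q : Pt) :
    ∑ j ∈ Finset.range (k * l + 1), tent j (dist p q)
      ≤ ∑ v ∈ ball ((k : ℝ) + 3), if blk l u q = blk l u p + v then (1 : ℝ) else 0 := by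
  by_cases h : ∀ j ∈ Finset.range (k * l + 1), tent j (dist p q) = 0
  · rw [Finset.sum_eq_zero h]; exact Finset.sum_nonneg fun v _ => by positivity
  · push Not at h
    obtain ⟨j, hj, hne⟩ := h
    have hd := abs_lt.mp (tent_pos_iff hne)
    have hjR : (j : ℝ) ≤ (k : ℝ) * l := by
      exact_mod_cast Nat.lt_succ_iff.mp (Finset.mem_range.mp hj)
    have hv : blk l u q - blk l u p ∈ ball ((k : ℝ) + 3) := by
      rw [mem_ball]
      have hl' : (3 : ℝ) ≤ l := by exact_mod_cast hl
      have e : ‖(l : ℝ) • toPt (blk l u q - blk l u p) - (q - p)‖ ≤ 2 * ((l : ℝ) + 1) := by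
        refine norm_le_two_mul (by positivity) fun i => ?_
        have h1 := blk_bounds l u (by omega) p i
        have h2 := blk_bounds l u (by omega) q i
        simp only [PiLp.sub_apply, PiLp.smul_apply, toPt_apply, Pi.sub_apply, Int.cast_sub,
          smul_eq_mul]
        rw [abs_le]; constructor <;> linarith [h1.1, h1.2, h2.1, h2.2]
      have e2 := norm_le_norm_add_norm_sub' ((l : ℝ) • toPt (blk l u q - blk l u p)) (q - p)
      rw [norm_smul, Real.norm_natCast, ← dist_eq_norm, dist_comm q p] at e2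
      refine le_of_mul_le_mul_left ?_ (show (0 : ℝ) < l by linarith)
      nlinarith
    refine (tent_sum_le_one dist_nonneg _).trans ?_
    refine le_trans ?_ (Finset.single_le_sum
      (f := fun v => if blk l u q = blk l u p + v then (1 : ℝ) else 0)
      (fun v _ => by positivity) hv)
    simp

variable {ι : Type} [Fintype ι]

lemma kac_pair_le (k l u : ℕ) (hl : 3 ≤ l) (x : ι → Pt) :
    pairSum (rad (psi (kac (k * l)))) x
      ≤ (ball ((k : ℝ) + 3)).card / ((k * l : ℕ) : ℝ) ^ 3 * pairSum (same (blk l u)) x := by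
  set R : ℝ := ((k * l : ℕ) : ℝ) ^ 3
  have hR : 0 ≤ R := by positivity
  calc pairSum (rad (psi (kac (k * l)))) x
      ≤ ∑ i, ∑ m, (∑ v ∈ ball ((k : ℝ) + 3),
          if blk l u (x m) = blk l u (x i) + v then (1 : ℝ) * 1 else 0) / R := by
        refine Finset.sum_le_sum fun i _ => Finset.sum_le_sum fun m _ => ?_
        unfold rad
        split_ifs
        · exact div_nonneg (Finset.sum_nonneg fun v _ => by positivity) hR
        · rw [psi_kac]
          simp only [mul_one]
          exact div_le_div_of_nonneg_right (kac_le_shift k l u hl _ _) hR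
    _ ≤ _ := by
        simp only [← Finset.sum_div]
        rw [pairSum_same, div_mul_eq_mul_div]
        refine div_le_div_of_nonneg_right (le_trans (le_of_eq ?_)
          (pair_shifts_le (fun _ => (1 : ℝ)) (fun i => blk l u (x i)) (ball ((k : ℝ) + 3)))) hR
        refine Finset.sum_congr rfl fun i _ => Finset.sum_congr rfl fun m _ =>
          Finset.sum_congr rfl fun v _ => ?_
        split_ifs <;> rfl

/-- The kernel that couples only points of one block. -/
def Kup (a : ℕ → ℝ) (δ e : ℝ) (l u : ℕ) (p q : Pt) : ℝ :=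
  same (blk l u) p q * (KC a δ p q + e)

lemma cross_le (a : Par) (ha : ∀ j, 0 ≤ a j) (l J : ℕ) (hl : 0 < l) (x : ι → Pt) :
    ∃ u ∈ Finset.range l,
      pairSum (fun p q => (1 - same (blk l u) p q) * rad (psi a) p q) x
        ≤ (‖a‖ * (6 * ((J : ℝ) + 4)) / l + (‖a‖ - ∑ j ∈ Finset.range J, a j))
            * pairSum (same cell) x := by
  set b : ℕ → ι → ℝ := fun u i => if nearWall l u (J + 4) (cell (x i)) then 1 else 0 with hb
  have hb0 : ∀ u i, 0 ≤ b u i := fun u i => by simp only [hb]; split_ifs <;> norm_num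
  set Y := pairSum (same cell) x with hY
  have hsum : ∑ u ∈ Finset.range l, pairQ (b u) (fun i => cell (x i))
      ≤ (6 * ((J : ℝ) + 4)) * Y := by
    rw [hY, pairSum_same, pairQ_one, Finset.mul_sum]
    simp only [pairQ]
    rw [Finset.sum_comm]
    refine Finset.sum_le_sum fun i _ => ?_
    rw [Finset.sum_comm, Finset.mul_sum]
    refine Finset.sum_le_sum fun k _ => ?_
    split_ifs
    · rw [mul_one]
      calc ∑ u ∈ Finset.range l, b u i * b u k ≤ ∑ u ∈ Finset.range l, b u i := by
            refine Finset.sum_le_sum fun u _ => ?_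
            simp only [hb]; split_ifs <;> norm_num
        _ = (((Finset.range l).filter fun u => nearWall l u (J + 4) (cell (x i))).card : ℝ) := by
            simp [hb, Finset.sum_boole]
        _ ≤ ((6 * (J + 4) : ℕ) : ℝ) := Nat.cast_le.mpr (nearWall_count l (J + 4) hl _)
        _ = _ := by push_cast; ring
    · simp
  obtain ⟨u, hu, hmin⟩ := Finset.exists_min_image (Finset.range l)
    (fun u => pairQ (b u) (fun i => cell (x i))) ⟨0, Finset.mem_range.mpr hl⟩
  refine ⟨u, hu, ?_⟩
  have hQ : pairQ (b u) (fun i => cell (x i)) ≤ 6 * ((J : ℝ) + 4) / l * Y := by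
    rw [div_mul_eq_mul_div, le_div_iff₀ (Nat.cast_pos.mpr hl)]
    have := (Finset.card_nsmul_le_sum _ _ _ hmin).trans hsum
    rw [Finset.card_range, nsmul_eq_mul] at this
    linarith
  obtain ⟨N₀, hN₀⟩ := exists_range x
  set N := max N₀ J with hN
  have hNd : ∀ i k, dist (x i) (x k) + 1 ≤ N := fun i k =>
    (hN₀ i k).trans (Nat.cast_le.mpr (le_max_left _ _))
  set w : ℕ → ι → ι → ℝ := fun j i k => tent j (dist (x i) (x k)) / cnt j with hw
  have hw0 : ∀ j i k, 0 ≤ w j i k := fun j i k => div_nonneg (tent_nonneg _ _) (cnt_pos j).le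
  have hrange : Finset.range J ⊆ Finset.range N := Finset.range_subset_range.mpr (le_max_right _ _)
  calc pairSum (fun p q => (1 - same (blk l u) p q) * rad (psi a) p q) x
      ≤ ∑ i, ∑ k, ((∑ j ∈ Finset.range J, a j * (w j i k * (b u i * b u k)))
          + ∑ j ∈ Finset.range N \ Finset.range J, a j * w j i k) := by
        refine Finset.sum_le_sum fun i _ => Finset.sum_le_sum fun k _ => ?_
        have hA : 0 ≤ ∑ j ∈ Finset.range J, a j * (w j i k * (b u i * b u k)) :=
          Finset.sum_nonneg fun j _ =>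
            mul_nonneg (ha j) (mul_nonneg (hw0 j i k) (mul_nonneg (hb0 u i) (hb0 u k)))
        have hB : 0 ≤ ∑ j ∈ Finset.range N \ Finset.range J, a j * w j i k :=
          Finset.sum_nonneg fun j _ => mul_nonneg (ha j) (hw0 j i k)
        by_cases hs : blk l u (x i) = blk l u (x k)
        · simp only [same, if_pos hs, sub_self, zero_mul]; linarith
        by_cases he : x i = x k
        · exact absurd (he ▸ rfl) hs
        simp only [same, if_neg hs, sub_zero, one_mul, rad, if_neg he]
        rw [psi_eq_sum a N (hNd i k), ← Finset.sum_sdiff hrange, add_comm]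
        refine add_le_add (Finset.sum_le_sum fun j hj => ?_)
          (le_of_eq (Finset.sum_congr rfl fun j _ => by simp only [hw]; ring))
        by_cases ht : tent j (dist (x i) (x k)) = 0
        · simp [hw, ht]
        have hd := abs_lt.mp (tent_pos_iff ht)
        have hn := abs_le.mp (norm_cell_sub (x i) (x k))
        have hjJ : (j : ℝ) + 1 ≤ J := by exact_mod_cast Finset.mem_range.mp hj
        have hclose : ∀ c, |cell (x k) c - cell (x i) c| ≤ ((J + 4 : ℕ) : ℤ) := by
          intro c
          have h1 := abs_coord_le (toPt (cell (x k) - cell (x i))) c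
          rw [toPt_apply, Pi.sub_apply] at h1
          have h2 : ((|cell (x k) c - cell (x i) c| : ℤ) : ℝ) ≤ ((J + 4 : ℕ) : ℤ) := by
            push_cast at h1 ⊢; linarith
          exact_mod_cast h2
        obtain ⟨n1, n2⟩ := nearWall_of_cross l u (J + 4) hl _ _ hclose (Function.ne_iff.mp hs)
        simp only [hw, hb, if_pos n1, if_pos n2]
        exact le_of_eq (by ring)
    _ = (∑ j ∈ Finset.range J, a j * ∑ i, ∑ k, w j i k * (b u i * b u k))
          + ∑ j ∈ Finset.range N \ Finset.range J, a j * ∑ i, ∑ k, w j i k := by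
        simp only [Finset.sum_add_distrib, Finset.mul_sum]
        congr 1 <;> exact (Finset.sum_congr rfl fun i _ => Finset.sum_comm).trans Finset.sum_comm
    _ ≤ (∑ j ∈ Finset.range J, a j * (6 * ((J : ℝ) + 4) / l * Y))
          + ∑ j ∈ Finset.range N \ Finset.range J, a j * Y := by
        refine add_le_add (Finset.sum_le_sum fun j _ => mul_le_mul_of_nonneg_left ?_ (ha j))
          (Finset.sum_le_sum fun j _ => mul_le_mul_of_nonneg_left (tent_sum_le j x) (ha j))
        refine le_trans (le_of_eq ?_) ((weighted_tent_le j (b u) (hb0 u) x).trans hQ)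
        exact Finset.sum_congr rfl fun i _ => Finset.sum_congr rfl fun k _ => by simp only [hw]; ring
    _ ≤ _ := by
        have hsum' : ∀ s : Finset ℕ, ∑ j ∈ s, a j ≤ ‖a‖ := fun s => by
          rw [par_norm]
          refine le_trans (le_of_eq (Finset.sum_congr rfl fun j _ => (abs_of_nonneg (ha j)).symm)) ?_
          exact (par_summable a).sum_le_tsum _ fun j _ => abs_nonneg _
        have e := Finset.sum_sdiff hrange (f := fun j => a j)
        have h1 := hsum' (Finset.range N)
        have h2 := hsum' (Finset.range J)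
        have hY0 : 0 ≤ Y := pairSum_same_nonneg _ _
        have h3 := mul_le_mul_of_nonneg_right h2
          (show (0 : ℝ) ≤ 6 * ((J : ℝ) + 4) / l * Y by positivity)
        have h4 := mul_le_mul_of_nonneg_right
          (show ∑ j ∈ Finset.range N \ Finset.range J, a j ≤ ‖a‖ - ∑ j ∈ Finset.range J, a j by linarith) hY0
        rw [← Finset.sum_mul, ← Finset.sum_mul]
        calc _ ≤ ‖a‖ * (6 * ((J : ℝ) + 4) / l * Y) + (‖a‖ - ∑ j ∈ Finset.range J, a j) * Y :=
              add_le_add h3 h4
          _ = _ := by ring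

lemma blk_eq_of_cell {l u : ℕ} {p q : Pt} (h : cell p = cell q) : blk l u p = blk l u q := by
  funext i
  have := congrFun h i
  simp only [cell] at this
  simp only [blk, this]

/-- Reduction to decoupled blocks. -/
lemma block_bound (a : Par) (ha : ∀ j, 0 ≤ a j) (t s : ℝ) (hs : 0 ≤ s) (k l J : ℕ) (hl : 3 ≤ l)
    (x : ι → Pt) :
    ∃ u ∈ Finset.range l,
      logW t (KK ⇑(a + s • kac (k * l))) x
        ≤ logW t (Kup a ((‖a‖ * (6 * ((J : ℝ) + 4)) / l + (‖a‖ - ∑ j ∈ Finset.range J, a j)) / 2)
            (s * ((ball ((k : ℝ) + 3)).card / (2 * (k : ℝ) ^ 3)) / (l : ℝ) ^ 3) l u) x := by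
  obtain ⟨u, hu, hc⟩ := cross_le a ha l J (by omega) x
  refine ⟨u, hu, ?_⟩
  set δ := (‖a‖ * (6 * ((J : ℝ) + 4)) / l + (‖a‖ - ∑ j ∈ Finset.range J, a j)) / 2
  set e := s * ((ball ((k : ℝ) + 3)).card / (2 * (k : ℝ) ^ 3)) / (l : ℝ) ^ 3 with he
  rw [logW_eq_pairSum, logW_eq_pairSum]
  refine (add_le_add_iff_left _).mpr ?_
  have hL : pairSum (KK ⇑(a + s • kac (k * l))) x
      = pairSum (KK a) x + s / 2 * pairSum (rad (psi (kac (k * l)))) x := by
    rw [← pairSum_mul, ← pairSum_add]
    refine congrArg (fun K => pairSum K x) (funext fun p => funext fun q => ?_)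
    simp only [KK, rad, phi, lp.coeFn_add, lp.coeFn_smul]
    split_ifs
    · simp
    · have : psi (⇑a + s • ⇑(kac (k * l))) (dist p q)
          = psi a (dist p q) + s * psi (kac (k * l)) (dist p q) := by
        rw [← psi_smul, ← psi_add]; rfl
      rw [this]; ring
  have hR : pairSum (KK a) x ≤ pairSum (fun p q => same (blk l u) p q * KK a p q) x
      + pairSum (fun p q => (1 - same (blk l u) p q) * rad (psi a) p q) x / 2 := by
    rw [div_eq_inv_mul, ← pairSum_mul, ← pairSum_add]
    refine pairSum_mono x fun i m => ?_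
    simp only [same, KK, rad, phi]
    split_ifs <;> linarith [core_nonneg (dist (x i) (x m))]
  have hU : pairSum (Kup a δ e l u) x = pairSum (fun p q => same (blk l u) p q * KK a p q) x
      + δ * pairSum (same cell) x + e * pairSum (same (blk l u)) x := by
    rw [← pairSum_mul, ← pairSum_mul, ← pairSum_add, ← pairSum_add]
    refine congrArg (fun K => pairSum K x) (funext fun p => funext fun q => ?_)
    simp only [Kup, KC, same]
    by_cases hcq : cell p = cell q
    · simp [hcq, blk_eq_of_cell (l := l) (u := u) hcq]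
    · simp only [if_neg hcq]; ring
  have hk := mul_le_mul_of_nonneg_left (kac_pair_le k l u hl x) (div_nonneg hs two_pos.le)
  have he' : e = s / 2 * ((ball ((k : ℝ) + 3)).card / ((k * l : ℕ) : ℝ) ^ 3) := by
    rw [he]; push_cast; ring
  have hδ : δ * pairSum (same cell) x
      = (‖a‖ * (6 * ((J : ℝ) + 4)) / l + (‖a‖ - ∑ j ∈ Finset.range J, a j))
          * pairSum (same cell) x / 2 := by
    simp only [δ]; ring
  rw [hL, hU, he']
  linarith

end

end Vale.Agent.P171
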