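import Mathlib
import Vale.Agent.P171.Basic

/-!
Lattice counting for configurations in dimension three.
-/

namespace Vale.Agent.P171

open Real
open scoped Classical

noncomputable section

/-- Integer triples. -/
abbrev Lat := Fin 3 → ℤ

/-- An integer triple as a point. -/
def toPt (v : Lat) : Pt := WithLp.toLp 2 fun i => (v i : ℝ)

/-- The unit cell of a point. -/
def cell (p : Pt) : Lat := fun i => ⌊p i⌋

/-- The small cell of side `1/m` of a point. -/
def subcell (m : ℕ) (p : Pt) : Lat := fun i => ⌊(m : ℝ) * p i⌋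

/-- The block of side `l` of a point, for the grid moved by `u`. -/
def blk (l u : ℕ) (p : Pt) : Lat := fun i => (⌊p i⌋ + u) / (l : ℤ)

@[simp] lemma toPt_apply (v : Lat) (i : Fin 3) : toPt v i = v i := rfl

lemma toPt_add (v w : Lat) : toPt (v + w) = toPt v + toPt w := by
  ext i; simp

lemma toPt_sub (v w : Lat) : toPt (v - w) = toPt v - toPt w := by
  ext i; simp

lemma abs_coord_le (w : Pt) (i : Fin 3) : |w i| ≤ ‖w‖ := by
  simpa [Real.norm_eq_abs] using PiLp.norm_apply_le (p := 2) w i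

lemma norm_le_two_mul {w : Pt} {δ : ℝ} (hδ : 0 ≤ δ) (h : ∀ i, |w i| ≤ δ) : ‖w‖ ≤ 2 * δ := by
  rw [EuclideanSpace.norm_eq, Real.sqrt_le_iff]
  refine ⟨by positivity, ?_⟩
  calc ∑ i : Fin 3, ‖w i‖ ^ 2 ≤ ∑ _i : Fin 3, δ ^ 2 := by
        refine Finset.sum_le_sum fun i _ => ?_
        rw [Real.norm_eq_abs]
        exact pow_le_pow_left₀ (abs_nonneg _) (h i) 2
    _ ≤ (2 * δ) ^ 2 := by simp; nlinarith

lemma norm_cell_sub (p q : Pt) : |‖toPt (cell q - cell p)‖ - dist p q| ≤ 2 := by
  rw [dist_comm, dist_eq_norm]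
  refine (abs_norm_sub_norm_le _ _).trans ?_
  refine (norm_le_two_mul (δ := 1) zero_le_one fun i => ?_).trans (by norm_num)
  simp only [PiLp.sub_apply, toPt_apply, Pi.sub_apply, cell, Int.cast_sub]
  have := Int.floor_le (p i); have := Int.lt_floor_add_one (p i)
  have := Int.floor_le (q i); have := Int.lt_floor_add_one (q i)
  rw [abs_le]; constructor <;> linarith

/-- Lattice points of norm at most `r`. -/
def ball (r : ℝ) : Finset Lat :=
  (Fintype.piFinset fun _ : Fin 3 => Finset.Icc (-(⌈r⌉₊ : ℤ)) ⌈r⌉₊).filter fun v => ‖toPt v‖ ≤ r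

lemma mem_ball {r : ℝ} {v : Lat} : v ∈ ball r ↔ ‖toPt v‖ ≤ r := by
  simp only [ball, Finset.mem_filter, Fintype.mem_piFinset, Finset.mem_Icc, and_iff_right_iff_imp]
  intro h i
  have h1 : |(v i : ℝ)| ≤ r := (abs_coord_le (toPt v) i).trans h
  have h2 := Nat.le_ceil r
  rw [abs_le] at h1
  constructor
  · have : -((⌈r⌉₊ : ℕ) : ℝ) ≤ (v i : ℝ) := by linarith
    exact_mod_cast this
  · have : (v i : ℝ) ≤ ((⌈r⌉₊ : ℕ) : ℝ) := by linarith
    exact_mod_cast this

lemma card_ball_le (r : ℝ) : (ball r).card ≤ (2 * ⌈r⌉₊ + 1) ^ 3 := by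
  refine (Finset.card_filter_le _ _).trans (le_of_eq ?_)
  simp only [Fintype.card_piFinset, Int.card_Icc, Finset.prod_const, Finset.card_univ,
    Fintype.card_fin]
  congr 1
  omega

variable {ι : Type} [Fintype ι]

/-- Sum of a kernel over ordered pairs of a configuration. -/
def pairSum (K : Pt → Pt → ℝ) (x : ι → Pt) : ℝ := ∑ i, ∑ k, K (x i) (x k)

lemma logW_eq_pairSum (t : ℝ) (K : Pt → Pt → ℝ) (x : ι → Pt) :
    logW t K x = t * Fintype.card ι + pairSum K x := logW_eq t K x

/-- The kernel that marks pairs with equal value of `f`. -/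
def same (f : Pt → Lat) (p q : Pt) : ℝ := if f p = f q then 1 else 0

/-- Weighted number of ordered pairs with equal label. -/
def pairQ {C : Type} (b : ι → ℝ) (g : ι → C) : ℝ :=
  ∑ i, ∑ k, if g k = g i then b i * b k else 0

lemma fiber_mul {C : Type} (b : ι → ℝ) (g h : ι → C) (s : Finset C) (hs : ∀ i, g i ∈ s) :
    ∑ c ∈ s, (∑ i, if g i = c then b i else 0) * (∑ k, if h k = c then b k else 0)
      = ∑ i, ∑ k, if h k = g i then b i * b k else 0 := by
  simp only [Finset.sum_mul_sum]
  rw [Finset.sum_comm]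
  refine Finset.sum_congr rfl fun i _ => ?_
  rw [Finset.sum_comm]
  refine Finset.sum_congr rfl fun k _ => ?_
  rw [Finset.sum_eq_single (g i)]
  · simp
  · intro c _ hc; simp [Ne.symm hc]
  · intro hn; exact absurd (hs i) hn

lemma pairQ_eq {C : Type} (b : ι → ℝ) (g : ι → C) (s : Finset C) (hs : ∀ i, g i ∈ s) :
    pairQ b g = ∑ c ∈ s, (∑ i, if g i = c then b i else 0) ^ 2 := by
  simp only [sq]
  exact (fiber_mul b g g s hs).symm

lemma pairQ_one {C : Type} (g : ι → C) :
    pairQ (fun _ => (1 : ℝ)) g = ∑ i, ∑ k, if g k = g i then (1 : ℝ) else 0 := by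
  simp [pairQ]

lemma pairSum_same (f : Pt → Lat) (x : ι → Pt) :
    pairSum (same f) x = pairQ (fun _ => (1 : ℝ)) (fun i => f (x i)) := by
  simp only [pairQ_one, pairSum, same]
  exact Finset.sum_congr rfl fun i _ => Finset.sum_congr rfl fun k _ => by
    split_ifs with h h' h' <;> first | rfl | exact absurd h.symm h' | exact absurd h'.symm h

lemma pairQ_nonneg {C : Type} (b : ι → ℝ) (g : ι → C) : 0 ≤ pairQ b g := by
  rw [pairQ_eq b g (Finset.univ.image g) (by simp)]
  exact Finset.sum_nonneg fun c _ => sq_nonneg _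

lemma pairSum_same_nonneg (f : Pt → Lat) (x : ι → Pt) : 0 ≤ pairSum (same f) x := by
  rw [pairSum_same]; exact pairQ_nonneg _ _

/-- Pairs at a given lattice shift are bounded by the pairs in the same cell. -/
lemma pair_shift_le {C : Type} [AddGroup C] (b : ι → ℝ) (g : ι → C) (v : C) :
    (∑ i, ∑ k, if g k = g i + v then b i * b k else 0) ≤ pairQ b g := by
  set h : ι → C := fun i => g i + v with hh
  have hq : pairQ b h = pairQ b g := by simp [pairQ, hh]
  set s : Finset C := Finset.univ.image g ∪ Finset.univ.image h with hs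
  have hg : ∀ i, g i ∈ s := fun i => by simp [hs]
  have hh' : ∀ i, h i ∈ s := fun i => by simp [hs]
  have e : (∑ i, ∑ k, if g k = g i + v then b i * b k else 0)
      = ∑ c ∈ s, (∑ i, if h i = c then b i else 0) * (∑ k, if g k = c then b k else 0) :=
    (fiber_mul b h g s hh').symm
  rw [e]
  calc ∑ c ∈ s, (∑ i, if h i = c then b i else 0) * (∑ k, if g k = c then b k else 0)
      ≤ ∑ c ∈ s, ((∑ i, if h i = c then b i else 0) ^ 2 / 2
          + (∑ k, if g k = c then b k else 0) ^ 2 / 2) := by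
        refine Finset.sum_le_sum fun c _ => ?_
        nlinarith [sq_nonneg ((∑ i, if h i = c then b i else 0) - ∑ k, if g k = c then b k else 0)]
    _ = pairQ b g := by
        rw [Finset.sum_add_distrib, ← Finset.sum_div, ← Finset.sum_div, ← pairQ_eq b h s hh',
          ← pairQ_eq b g s hg, hq]
        ring

/-- A set of shifts gives at most that many copies of the diagonal count. -/
lemma pair_shifts_le {C : Type} [AddGroup C] (b : ι → ℝ) (g : ι → C) (V : Finset C) :
    (∑ i, ∑ k, (∑ v ∈ V, if g k = g i + v then b i * b k else 0)) ≤ V.card * pairQ b g := by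
  calc (∑ i, ∑ k, ∑ v ∈ V, if g k = g i + v then b i * b k else 0)
      = ∑ v ∈ V, ∑ i, ∑ k, if g k = g i + v then b i * b k else 0 := by
        exact (Finset.sum_congr rfl fun i _ => Finset.sum_comm).trans Finset.sum_comm
    _ ≤ ∑ _v ∈ V, pairQ b g := Finset.sum_le_sum fun v _ => pair_shift_le b g v
    _ = _ := by simp

/-- Coarsening of labels. -/
lemma pairQ_coarse {C C' : Type} (b : ι → ℝ) (h : ι → C') (pr : C' → C) (D : ℕ)
    (hD : ∀ c, ((Finset.univ.image h).filter fun d => pr d = c).card ≤ D) :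
    pairQ b (fun i => pr (h i)) ≤ D * pairQ b h := by
  set s := Finset.univ.image h with hs
  have hmem : ∀ i, h i ∈ s := fun i => by simp [hs]
  rw [pairQ_eq b _ (s.image pr) (fun i => Finset.mem_image_of_mem pr (hmem i)), pairQ_eq b h s hmem]
  have hG : ∀ c, (∑ i, if pr (h i) = c then b i else 0)
      = ∑ d ∈ s.filter (fun d => pr d = c), ∑ i, if h i = d then b i else 0 := by
    intro c
    rw [Finset.sum_comm]
    refine Finset.sum_congr rfl fun i _ => ?_
    simp [hmem i]
  calc ∑ c ∈ s.image pr, (∑ i, if pr (h i) = c then b i else 0) ^ 2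
      ≤ ∑ c ∈ s.image pr, (D : ℝ) * ∑ d ∈ s.filter (fun d => pr d = c),
          (∑ i, if h i = d then b i else 0) ^ 2 := by
        refine Finset.sum_le_sum fun c _ => ?_
        rw [hG c]
        refine sq_sum_le_card_mul_sum_sq.trans ?_
        refine mul_le_mul_of_nonneg_right ?_ (Finset.sum_nonneg fun d _ => sq_nonneg _)
        exact_mod_cast hD c
    _ = _ := by
        rw [← Finset.mul_sum]
        congr 1
        exact Finset.sum_fiberwise_of_maps_to (fun d hd => Finset.mem_image_of_mem pr hd) _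

lemma card_box_fiber (m : ℕ) (hm : 0 < m) (u : ℤ) (s : Finset Lat) (c : Lat)
    {inst : DecidablePred fun d : Lat => (fun i => (d i + u) / (m : ℤ)) = c} :
    (@Finset.filter _ (fun d : Lat => (fun i => (d i + u) / (m : ℤ)) = c) inst s).card ≤ m ^ 3 := by
  refine (Finset.card_le_card (t := Fintype.piFinset fun i =>
    Finset.Ico ((m : ℤ) * c i - u) ((m : ℤ) * c i - u + m)) fun d hd => ?_).trans (le_of_eq ?_)
  · simp only [Finset.mem_filter] at hd
    simp only [Fintype.mem_piFinset, Finset.mem_Ico]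
    intro i
    have h : (d i + u) / (m : ℤ) = c i := congrFun hd.2 i
    have h1 := Int.mul_ediv_add_emod (d i + u) m
    have h2 := Int.emod_nonneg (d i + u) (show (m : ℤ) ≠ 0 by omega)
    have h3 := Int.emod_lt_of_pos (d i + u) (show (0 : ℤ) < m by omega)
    rw [h] at h1
    constructor <;> omega
  · simp [Fintype.card_piFinset]

lemma cell_eq_subcell_div (m : ℕ) (hm : 0 < m) (p : Pt) :
    cell p = fun i => (subcell m p i + 0) / (m : ℤ) := by
  funext i
  simp only [cell, subcell, add_zero]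
  rw [← Int.floor_div_natCast]
  · congr 1
    field_simp

lemma same_cell_le_subcell (m : ℕ) (hm : 0 < m) (x : ι → Pt) :
    pairSum (same cell) x ≤ (m : ℝ) ^ 3 * pairSum (same (subcell m)) x := by
  rw [pairSum_same, pairSum_same]
  have h := pairQ_coarse (fun _ => (1 : ℝ)) (fun i => subcell m (x i))
    (fun d : Lat => fun i => (d i + 0) / (m : ℤ)) (m ^ 3)
    (fun c => card_box_fiber m hm 0 _ c)
  have e : (fun i => cell (x i)) = fun i => (fun j => (subcell m (x i) j + 0) / (m : ℤ)) :=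
    funext fun i => cell_eq_subcell_div m hm (x i)
  rw [e]
  exact_mod_cast h

lemma blk_le_cell (l u : ℕ) (hl : 0 < l) (x : ι → Pt) :
    pairSum (same (blk l u)) x ≤ (l : ℝ) ^ 3 * pairSum (same cell) x := by
  rw [pairSum_same, pairSum_same]
  have h := pairQ_coarse (fun _ => (1 : ℝ)) (fun i => cell (x i))
    (fun d : Lat => fun i => (d i + u) / (l : ℤ)) (l ^ 3)
    (fun c => card_box_fiber l hl u _ c)
  exact_mod_cast h

/-- A cell near the wall of the moved grid. -/
def nearWall (l u D : ℕ) (z : Lat) : Prop :=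
  ∃ i, (z i + u) % (l : ℤ) < D ∨ (l : ℤ) - D ≤ (z i + u) % (l : ℤ)

lemma nearWall_of_cross (l u D : ℕ) (hl : 0 < l) (z z' : Lat) (hD : ∀ i, |z' i - z i| ≤ D)
    (h : ∃ i, (z i + u) / (l : ℤ) ≠ (z' i + u) / (l : ℤ)) :
    nearWall l u D z ∧ nearWall l u D z' := by
  obtain ⟨i, hi⟩ := h
  have key : ∀ a b : ℤ, a / (l : ℤ) < b / (l : ℤ) → b - a ≤ D →
      ((l : ℤ) - D ≤ a % (l : ℤ)) ∧ (b % (l : ℤ) < D) := by
    intro a b hab hd
    have h1 := Int.mul_ediv_add_emod a (l : ℤ)
    have h2 := Int.mul_ediv_add_emod b (l : ℤ)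
    have h3 := Int.emod_nonneg b (show (l : ℤ) ≠ 0 by omega)
    have h4 := Int.emod_lt_of_pos a (show (0 : ℤ) < l by omega)
    have h5 : (l : ℤ) * (a / l + 1) ≤ (l : ℤ) * (b / l) :=
      mul_le_mul_of_nonneg_left (by omega) (by omega)
    rw [mul_add, mul_one] at h5
    constructor <;> omega
  have hd := abs_le.mp (hD i)
  rcases lt_or_gt_of_ne hi with hlt | hgt
  · obtain ⟨a, b⟩ := key _ _ hlt (by omega)
    exact ⟨⟨i, Or.inr a⟩, ⟨i, Or.inl b⟩⟩
  · obtain ⟨a, b⟩ := key _ _ hgt (by omega)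
    exact ⟨⟨i, Or.inl b⟩, ⟨i, Or.inr a⟩⟩

lemma nearWall_count (l D : ℕ) (hl : 0 < l) (z : Lat) :
    ((Finset.range l).filter fun u => nearWall l u D z).card ≤ 6 * D := by
  set S : Fin 3 → Finset ℕ := fun i => (Finset.range l).filter fun u : ℕ =>
    (z i + u) % (l : ℤ) < D ∨ (l : ℤ) - D ≤ (z i + u) % (l : ℤ) with hS
  refine (Finset.card_le_card (t := Finset.univ.biUnion S) fun u hu => ?_).trans ?_
  · rw [Finset.mem_filter] at hu
    obtain ⟨hu1, i, hi⟩ := hu
    simp only [hS, Finset.mem_biUnion, Finset.mem_univ, true_and, Finset.mem_filter]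
    exact ⟨i, hu1, hi⟩
  refine Finset.card_biUnion_le.trans ?_
  have h : ∀ i, (S i).card ≤ 2 * D := by
    intro i
    refine (Finset.card_le_card_of_injOn (fun u : ℕ => (z i + u) % (l : ℤ))
      (t := Finset.Ico (0 : ℤ) D ∪ Finset.Ico ((l : ℤ) - D) l) ?_ ?_).trans ?_
    · intro u hu
      simp only [hS, Finset.coe_filter, Set.mem_ofPred_eq] at hu
      have h3 := Int.emod_nonneg (z i + u) (show (l : ℤ) ≠ 0 by omega)
      have h4 := Int.emod_lt_of_pos (z i + u) (show (0 : ℤ) < l by omega)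
      simp only [Finset.coe_union, Finset.coe_Ico, Set.mem_union, Set.mem_Ico]
      rcases hu.2 with h | h
      · exact Or.inl ⟨h3, h⟩
      · exact Or.inr ⟨h, h4⟩
    · intro u hu v hv huv
      simp only [hS, Finset.coe_filter, Set.mem_ofPred_eq, Finset.mem_range] at hu hv
      have h1 := Int.emod_eq_emod_iff_emod_sub_eq_zero.mp huv
      have h2 : (l : ℤ) ∣ ((u : ℤ) - v) := by
        have : (l : ℤ) ∣ (z i + u) - (z i + v) := Int.dvd_of_emod_eq_zero h1
        simpa using this
      have h5 : (u : ℤ) - v = 0 := by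
        refine Int.eq_zero_of_abs_lt_dvd h2 ?_
        rw [abs_lt]; omega
      omega
    · refine (Finset.card_union_le _ _).trans ?_
      simp
      omega
  calc ∑ i, (S i).card ≤ ∑ _i : Fin 3, 2 * D := Finset.sum_le_sum fun i _ => h i
    _ = 6 * D := by simp; ring

end

end Vale.Agent.P171
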