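import Vale.Agent.P171.Kac

/-!
Lower bounds from lattice configurations.
-/

namespace Vale.Agent.P171

open MeasureTheory Real Filter
open scoped ENNReal Classical Topology

noncomputable section

/-- The trial pair weight of shell `j` at lattice shift `v`. -/
def bump (j : ℕ) (v : Lat) : ℝ :=
  if v = 0 then 0 else max (tent j ‖toPt (v + v)‖ - 1 / 8) 0

/-- The trial coefficient of shell `j`. -/
def qc (j : ℕ) : ℝ := (∑ v ∈ ball ((j : ℝ) + 1), bump j v) / cnt j

/-- The linear functional of the trial state. -/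
def qlin (a : ℕ → ℝ) : ℝ := ∑' j, a j * qc j

lemma bump_nonneg (j : ℕ) (v : Lat) : 0 ≤ bump j v := by
  unfold bump; split_ifs; · exact le_rfl
  exact le_max_right _ _

lemma bump_le_one (j : ℕ) (v : Lat) : bump j v ≤ 1 := by
  unfold bump; split_ifs; · exact zero_le_one
  exact max_le (by have := tent_le_one j ‖toPt (v + v)‖; linarith) zero_le_one

lemma bump_ne_zero {j : ℕ} {v : Lat} (h : bump j v ≠ 0) :
    v ∈ ball ((j : ℝ) + 1) ∧ v + v ∈ shell j := by
  have ht : tent j ‖toPt (v + v)‖ ≠ 0 := by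
    intro h0; apply h; unfold bump; split_ifs <;> simp [h0]
  have hd := abs_lt.mp (tent_pos_iff ht)
  have e : ‖toPt (v + v)‖ = 2 * ‖toPt v‖ := by
    rw [toPt_add, ← two_smul ℝ (toPt v), norm_smul]; norm_num
  have := norm_nonneg (toPt v)
  constructor
  · rw [mem_ball]; linarith
  · rw [mem_shell]; constructor <;> linarith

lemma qc_nonneg (j : ℕ) : 0 ≤ qc j :=
  div_nonneg (Finset.sum_nonneg fun v _ => bump_nonneg j v) (cnt_pos j).le

lemma qc_le_one (j : ℕ) : qc j ≤ 1 := by
  rw [qc, div_le_one (cnt_pos j), ← Finset.sum_filter_ne_zero]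
  refine (Finset.sum_le_card_nsmul _ _ 1 fun v _ => bump_le_one j v).trans ?_
  rw [nsmul_one, cnt]
  refine Nat.cast_le.mpr (Finset.card_le_card_of_injOn (fun v => v + v)
    (fun v hv => (bump_ne_zero (Finset.mem_filter.mp hv).2).2) ?_)
  intro v _ w _ h
  funext i
  have h' : v i + v i = w i + w i := congrFun h i
  omega

lemma qlin_summable (a : Par) : Summable fun j => a j * qc j := by
  refine Summable.of_norm_bounded (par_summable a) fun j => ?_
  rw [Real.norm_eq_abs, abs_mul, abs_of_nonneg (qc_nonneg j)]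
  exact mul_le_of_le_one_right (abs_nonneg _) (qc_le_one j)

lemma abs_qlin_sub_le (a b : Par) : |qlin a - qlin b| ≤ ‖a - b‖ := by
  rw [qlin, qlin, ← (qlin_summable a).tsum_sub (qlin_summable b), par_norm, ← Real.norm_eq_abs]
  refine tsum_of_norm_bounded (par_summable (a - b)).hasSum fun j => ?_
  rw [Real.norm_eq_abs, lp.coeFn_sub, Pi.sub_apply, ← sub_mul, abs_mul, abs_of_nonneg (qc_nonneg j)]
  exact mul_le_of_le_one_right (abs_nonneg _) (qc_le_one j)

lemma continuous_qlin : Continuous fun a : Par => qlin a := by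
  refine (LipschitzWith.of_dist_le_mul (K := 1) fun a b => ?_).continuous
  rw [Real.dist_eq, dist_eq_norm, NNReal.coe_one, one_mul]
  exact abs_qlin_sub_le a b

/-- The lattice trial bound at a finite size. -/
lemma trial_bound (a : Par) (ha : ∀ j, 0 ≤ a j) (t : ℝ) (J m : ℕ) (hJ : 2 * J ≤ m) :
    (m : ℝ) ^ 3 * (t + Real.log ((1 / 16 : ℝ) ^ 3))
        + ((m - 2 * J : ℕ) : ℝ) ^ 3 * ((∑ j ∈ Finset.range J, a j * qc j) / 2)
      ≤ lg (box ((2 * m : ℕ) : ℝ)) t (KK a) := by
  set S : Finset Lat := Fintype.piFinset fun _ : Fin 3 => Finset.Ico (0 : ℤ) m with hS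
  set N : ℕ := m ^ 3
  have hcard : S.card = N := by simp [hS, N, Fintype.card_piFinset]
  set B : Lat → Set Pt := fun v => {p | ∀ i, p i ∈ Set.Ico (2 * (v i : ℝ)) (2 * v i + 1 / 16)}
    with hB
  have hBpre : ∀ v, B v = (@WithLp.ofLp 2 (Fin 3 → ℝ)) ⁻¹'
      (Set.univ.pi fun i => Set.Ico (2 * (v i : ℝ)) (2 * v i + 1 / 16)) := by
    intro v; ext p; simp [hB]
  have hBm : ∀ v, MeasurableSet (B v) := fun v => by
    rw [hBpre v]
    exact (PiLp.volume_preserving_ofLp (Fin 3)).measurable
      (MeasurableSet.univ_pi fun _ => measurableSet_Ico)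
  have hBv : ∀ v, volume (B v) = ENNReal.ofReal ((1 / 16 : ℝ) ^ 3) := by
    intro v
    rw [hBpre v, (PiLp.volume_preserving_ofLp (Fin 3)).measure_preimage
      (MeasurableSet.univ_pi fun _ => measurableSet_Ico).nullMeasurableSet, volume_pi_pi]
    rw [Finset.prod_congr rfl fun i _ => show volume (Set.Ico (2 * (v i : ℝ)) (2 * v i + 1 / 16))
      = ENNReal.ofReal (1 / 16 : ℝ) by rw [Real.volume_Ico]; congr 1; ring]
    simp only [Finset.prod_const, Finset.card_univ, Fintype.card_fin]
    exact (ENNReal.ofReal_pow (by norm_num) 3).symm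
  have hBd : ∀ v w p, p ∈ B v → p ∈ B w → v = w := by
    intro v w p hv hw
    funext i
    have h1 := hv i
    have h2 := hw i
    have h3 : |(v i : ℝ) - w i| < 1 := by
      rw [abs_lt]; constructor <;> linarith [h1.1, h1.2, h2.1, h2.2]
    have h4 : |v i - w i| < 1 := by exact_mod_cast h3
    have := abs_lt.mp h4
    omega
  set W : ℝ := (∑ j ∈ Finset.range J, a j * qc j) / 2
  set val : ℝ := t * N + ((m - 2 * J : ℕ) : ℝ) ^ 3 * W with hval
  set C : (Fin N ≃ S) → Set (Fin N → Pt) := fun σ => Set.univ.pi fun i => B (σ i) with hC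
  have hCm : ∀ σ, MeasurableSet (C σ) := fun σ => MeasurableSet.univ_pi fun i => hBm _
  set L0 : Lat → ℝ := fun v => (∑ j ∈ Finset.range J, a j * (bump j v / cnt j)) / 2 with hL0
  have hL00 : ∀ v, 0 ≤ L0 v := fun v => div_nonneg (Finset.sum_nonneg fun j _ =>
    mul_nonneg (ha j) (div_nonneg (bump_nonneg j v) (cnt_pos j).le)) two_pos.le
  have hW : W = ∑ v ∈ ball (J : ℝ), L0 v := by
    simp only [W, hL0, ← Finset.sum_div]
    rw [Finset.sum_comm]
    congr 1
    refine Finset.sum_congr rfl fun j hj => ?_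
    rw [qc, ← Finset.mul_sum, ← Finset.sum_div]
    congr 2
    have hjJ : (j : ℝ) + 1 ≤ J := by exact_mod_cast Finset.mem_range.mp hj
    refine Finset.sum_subset (fun v hv => mem_ball.mpr ((mem_ball.mp hv).trans hjJ)) fun v _ hv => ?_
    by_contra h
    exact hv (bump_ne_zero h).1
  have hsum : ((m - 2 * J : ℕ) : ℝ) ^ 3 * W ≤ ∑ w ∈ S, ∑ w' ∈ S, L0 (w' - w) := by
    set T : Finset Lat := Fintype.piFinset fun _ : Fin 3 => Finset.Ico (J : ℤ) ((m : ℤ) - J) with hT
    have hTcard : T.card = (m - 2 * J) ^ 3 := by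
      have e : ((m : ℤ) - J - J).toNat = m - 2 * J := by omega
      simp [hT, Fintype.card_piFinset, e]
    have hTS : T ⊆ S := Fintype.piFinset_subset _ _ fun _ => fun z hz => by
      simp only [Finset.mem_Ico] at hz ⊢; omega
    calc ((m - 2 * J : ℕ) : ℝ) ^ 3 * W = ∑ w ∈ T, ∑ v ∈ ball (J : ℝ), L0 v := by
          rw [← hW, Finset.sum_const, hTcard, nsmul_eq_mul]; push_cast; ring
      _ ≤ ∑ w ∈ T, ∑ w' ∈ S, L0 (w' - w) := by
          refine Finset.sum_le_sum fun w hw => ?_
          have e : ∑ w' ∈ (ball (J : ℝ)).image (fun v => w + v), L0 (w' - w)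
              = ∑ v ∈ ball (J : ℝ), L0 v := by
            rw [Finset.sum_image (fun x _ y _ h => add_left_cancel h)]
            exact Finset.sum_congr rfl fun v _ => by rw [add_sub_cancel_left]
          rw [← e]
          refine Finset.sum_le_sum_of_subset_of_nonneg ?_ fun _ _ _ => hL00 _
          intro z hz
          obtain ⟨v, hv, rfl⟩ := Finset.mem_image.mp hz
          simp only [hS, hT, Fintype.mem_piFinset, Finset.mem_Ico] at hw ⊢
          intro i
          have h1 : |(v i : ℝ)| ≤ J := (abs_coord_le (toPt v) i).trans (mem_ball.mp hv)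
          have h2 : |v i| ≤ (J : ℤ) := by exact_mod_cast h1
          have h3 := abs_le.mp h2
          have h4 := hw i
          simp only [Pi.add_apply]
          omega
      _ ≤ _ := Finset.sum_le_sum_of_subset_of_nonneg hTS
          fun _ _ _ => Finset.sum_nonneg fun _ _ => hL00 _
  have hlow : ∀ σ, ∀ x ∈ C σ, val ≤ logW t (KK a) x := by
    intro σ x hx
    rw [hval, logW_eq_pairSum, Fintype.card_fin]
    refine (add_le_add_iff_left _).mpr (hsum.trans ?_)
    rw [← Finset.sum_coe_sort S, ← σ.sum_comp]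
    refine Finset.sum_le_sum fun i _ => ?_
    rw [← Finset.sum_coe_sort S, ← σ.sum_comp]
    refine Finset.sum_le_sum fun k _ => ?_
    by_cases hik : i = k
    · subst hik
      simp [hL0, bump, KK, rad]
    · set v : Lat := (σ k : Lat) - σ i with hv
      have hne : v ≠ 0 := sub_ne_zero.mpr fun h => hik (σ.injective (Subtype.ext h.symm))
      obtain ⟨c, hc⟩ := Function.ne_iff.mp hne
      have hclose : |dist (x i) (x k) - ‖toPt (v + v)‖| ≤ 1 / 8 := by
        rw [dist_comm, dist_eq_norm]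
        refine (abs_norm_sub_norm_le _ _).trans
          ((norm_le_two_mul (δ := 1 / 16) (by norm_num) fun e => ?_).trans (by norm_num))
        have h1 := hx i (Set.mem_univ i) e
        have h2 := hx k (Set.mem_univ k) e
        simp only [hv, PiLp.sub_apply, toPt_apply, Pi.add_apply, Pi.sub_apply, Int.cast_add, Int.cast_sub]
        rw [abs_le]; constructor <;> linarith [h1.1, h1.2, h2.1, h2.2]
      have h2v : 2 ≤ ‖toPt (v + v)‖ := by
        refine le_trans ?_ (abs_coord_le _ c)
        have h : (1 : ℤ) ≤ |v c| := Int.one_le_abs (by simpa using hc)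
        have h' : (1 : ℝ) ≤ |(v c : ℝ)| := by exact_mod_cast h
        rw [toPt_apply, Pi.add_apply, Int.cast_add, ← two_mul, abs_mul, abs_two]
        linarith
      have hd1 : 1 ≤ dist (x i) (x k) := by
        have := (abs_le.mp hclose).1; linarith
      have hxne : x i ≠ x k := fun h => by rw [h, dist_self] at hd1; linarith
      set M := max J (⌈dist (x i) (x k)⌉₊ + 1)
      have hM : dist (x i) (x k) + 1 ≤ M := by
        have h1 := Nat.le_ceil (dist (x i) (x k))
        have h2 : ((⌈dist (x i) (x k)⌉₊ + 1 : ℕ) : ℝ) ≤ M := Nat.cast_le.mpr (le_max_right _ _)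
        push_cast at h2; linarith
      simp only [KK, rad, if_neg hxne, phi, core_eq_zero hd1, hL0, zero_sub, neg_neg]
      refine div_le_div_of_nonneg_right ?_ two_pos.le
      rw [psi_eq_sum a M hM]
      refine le_trans (Finset.sum_le_sum fun j _ => ?_)
        (Finset.sum_le_sum_of_subset_of_nonneg (Finset.range_subset_range.mpr (le_max_left _ _))
          fun j _ _ => div_nonneg (mul_nonneg (ha j) (tent_nonneg _ _)) (cnt_pos j).le)
      rw [← mul_div_assoc]
      refine div_le_div_of_nonneg_right (mul_le_mul_of_nonneg_left ?_ (ha j)) (cnt_pos j).le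
      rw [bump, if_neg hne]
      refine max_le ?_ (tent_nonneg _ _)
      have := abs_le.mp ((abs_tent_sub j ‖toPt (v + v)‖ (dist (x i) (x k))).trans
        ((abs_sub_comm _ _).trans_le hclose))
      linarith
  have hdis : ((Finset.univ : Finset (Fin N ≃ S)) : Set (Fin N ≃ S)).PairwiseDisjoint C := by
    intro σ _ σ' _ hne
    refine Set.disjoint_left.mpr fun x hx hx' => hne ?_
    ext i : 1
    exact Subtype.ext (hBd _ _ _ (hx i (Set.mem_univ i)) (hx' i (Set.mem_univ i)))
  have hsub : (⋃ σ ∈ (Finset.univ : Finset (Fin N ≃ S)), C σ)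
      ⊆ Set.univ.pi fun _ => box ((2 * m : ℕ) : ℝ) := by
    intro x hx i _ c
    simp only [Set.mem_iUnion] at hx
    obtain ⟨σ, -, hx⟩ := hx
    have h := hx i (Set.mem_univ i) c
    have hs := Finset.mem_Ico.mp (Fintype.mem_piFinset.mp (σ i).2 c)
    have h0 : (0 : ℝ) ≤ ((σ i : Lat) c : ℝ) := by exact_mod_cast hs.1
    have h1 : ((σ i : Lat) c : ℝ) + 1 ≤ m := by exact_mod_cast hs.2
    push_cast
    exact ⟨by linarith [h.1], by linarith [h.2]⟩
  have hge : ENNReal.ofReal ((((1 : ℝ) / 16) ^ 3) ^ N * exp val)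
      ≤ gc (box ((2 * m : ℕ) : ℝ)) t (KK a) := by
    refine le_trans ?_ (ENNReal.le_tsum N)
    have h1 : (N.factorial : ℝ≥0∞) * ENNReal.ofReal ((((1 : ℝ) / 16) ^ 3) ^ N * exp val)
        ≤ cInt (Fin N) (box ((2 * m : ℕ) : ℝ)) t (KK a) := by
      refine le_trans ?_ (lintegral_mono_set hsub)
      rw [lintegral_biUnion_finset hdis fun σ _ => hCm σ]
      refine le_trans ?_ (Finset.card_nsmul_le_sum _ _
        (ENNReal.ofReal ((((1 : ℝ) / 16) ^ 3) ^ N * exp val)) fun σ _ => ?_)
      · rw [Finset.card_univ, Fintype.card_equiv (Finset.equivFinOfCardEq hcard).symm,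
          Fintype.card_fin, nsmul_eq_mul]
      · calc ENNReal.ofReal ((((1 : ℝ) / 16) ^ 3) ^ N * exp val)
            = ∫⁻ _ in C σ, ENNReal.ofReal (exp val) := by
              rw [setLIntegral_const, hC, volume_pi_pi]
              simp only [hBv, Finset.prod_const, Finset.card_univ, Fintype.card_fin]
              rw [← ENNReal.ofReal_pow (by positivity), mul_comm (ENNReal.ofReal (exp val)),
                ← ENNReal.ofReal_mul (by positivity)]
          _ ≤ _ := setLIntegral_mono' (hCm σ) fun x hx =>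
              ENNReal.ofReal_le_ofReal (exp_le_exp.mpr (hlow σ x hx))
    refine le_trans (le_of_eq ?_) (mul_le_mul_right h1 _)
    rw [← mul_assoc, ENNReal.inv_mul_cancel (by exact_mod_cast N.factorial_ne_zero)
      (ENNReal.natCast_ne_top _), one_mul]
  have h3 := ENNReal.toReal_mono (gcK_finite a t _) hge
  rw [ENNReal.toReal_ofReal (by positivity)] at h3
  have h4 := Real.log_le_log (by positivity) h3
  rw [Real.log_mul (by positivity) (by positivity), Real.log_exp, Real.log_pow] at h4
  refine le_trans (le_of_eq ?_) h4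
  simp only [hval, N]
  push_cast
  ring

/-- The lattice trial bound on the pressure. -/
lemma Pr_lower (a : Par) (ha : ∀ j, 0 ≤ a j) (t : ℝ) :
    (t + Real.log ((1 / 16 : ℝ) ^ 3) + qlin a / 2) / 8 ≤ Pr t a := by
  have key : ∀ J : ℕ, (t + Real.log ((1 / 16 : ℝ) ^ 3) + (∑ j ∈ Finset.range J, a j * qc j) / 2) / 8
      ≤ Pr t a := by
    intro J
    set c := t + Real.log ((1 / 16 : ℝ) ^ 3)
    set W := (∑ j ∈ Finset.range J, a j * qc j) / 2
    have hlim : Tendsto (fun m : ℕ => lg (box ((2 * m : ℕ) : ℝ)) t (KK a) / ((2 * m : ℕ) : ℝ) ^ 3)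
        atTop (𝓝 (Pr t a)) :=
      (tendsto_Pr a ha t).comp (tendsto_natCast_atTop_atTop.comp
        (tendsto_id.const_mul_atTop' (by norm_num : (0 : ℕ) < 2)))
    have hlim2 : Tendsto (fun m : ℕ => (c + (1 - 2 * (J : ℝ) * (m : ℝ)⁻¹) ^ 3 * W) / 8) atTop
        (𝓝 ((c + W) / 8)) := by
      simpa using (((((tendsto_inv_atTop_nhds_zero_nat (𝕜 := ℝ)).const_mul (2 * (J : ℝ))).const_sub
        1).pow 3).mul_const W).const_add c |>.div_const 8
    refine le_of_tendsto_of_tendsto hlim2 hlim ?_
    filter_upwards [eventually_gt_atTop (2 * J)] with m hm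
    have hm0 : (0 : ℝ) < m := by exact_mod_cast (show 0 < m by omega)
    rw [le_div_iff₀ (by push_cast; exact pow_pos (by linarith) 3)]
    refine le_trans (le_of_eq ?_) (trial_bound a ha t J m hm.le)
    rw [Nat.cast_sub hm.le]
    simp only [c, W]
    push_cast
    field_simp
    ring
  have hl : Tendsto (fun J => (t + Real.log ((1 / 16 : ℝ) ^ 3) + (∑ j ∈ Finset.range J, a j * qc j) / 2) / 8)
      atTop (𝓝 ((t + Real.log ((1 / 16 : ℝ) ^ 3) + qlin a / 2) / 8)) :=
    ((((qlin_summable a).hasSum.tendsto_sum_nat).div_const 2).const_add _).div_const 8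
  exact le_of_tendsto hl (Eventually.of_forall key)

/-- The value of the trial functional along the long direction. -/
lemma qlin_kac_ge (k h : ℕ) (hk : 2 ≤ k) (hh : 0 < h) :
    3 / 4 * (((h : ℝ) ^ 3 * (ball ((k : ℝ) - 2)).card - 1) / ((k * (2 * h) : ℕ) : ℝ) ^ 3)
      ≤ qlin (kac (k * (2 * h))) := by
  set R := k * (2 * h) with hR
  have hR1 : 1 ≤ R := Nat.one_le_iff_ne_zero.mpr (by simp only [hR, ne_eq, Nat.mul_eq_zero]; omega)
  set T : Finset Lat := (ball ((R : ℝ) + 1)).filter fun v => v ≠ 0 ∧ ‖toPt (v + v)‖ ≤ R with hT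
  have hcardT : ((h : ℝ) ^ 3 * (ball ((k : ℝ) - 2)).card - 1) ≤ T.card := by
    set src := (ball ((k : ℝ) - 2)) ×ˢ (Fintype.piFinset fun _ : Fin 3 => Finset.Ico (0 : ℤ) h)
    set f : Lat × Lat → Lat := fun w => fun i => (h : ℤ) * w.1 i + w.2 i with hf
    have hmaps : ∀ w ∈ src, f w ∈ insert 0 T := by
      intro w hw
      simp only [src, Finset.mem_product, Fintype.mem_piFinset, Finset.mem_Ico, mem_ball] at hw
      obtain ⟨hw1, hw2⟩ := hw
      rw [Finset.mem_insert, hT, Finset.mem_filter, mem_ball]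
      by_cases h0 : f w = 0
      · exact Or.inl h0
      have hn : ‖toPt (f w)‖ ≤ (h : ℝ) * k := by
        have e : toPt (f w) = (h : ℝ) • toPt w.1 + toPt w.2 := by ext i; simp [hf]
        have h2 : ‖toPt w.2‖ ≤ 2 * (h : ℝ) := norm_le_two_mul (Nat.cast_nonneg h) fun i => by
          rw [toPt_apply, abs_of_nonneg (Int.cast_nonneg (hw2 i).1)]
          have : ((w.2 i : ℤ) : ℝ) ≤ ((h : ℤ) : ℝ) := Int.cast_le.mpr (hw2 i).2.le
          simpa using this
        rw [e]
        refine (norm_add_le _ _).trans ?_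
        rw [norm_smul, Real.norm_natCast]
        nlinarith [mul_le_mul_of_nonneg_left hw1 (Nat.cast_nonneg (α := ℝ) h)]
      have e2 : ‖toPt (f w + f w)‖ = 2 * ‖toPt (f w)‖ := by
        rw [toPt_add, ← two_smul ℝ (toPt (f w)), norm_smul]; norm_num
      have hRe : (R : ℝ) = 2 * ((h : ℝ) * k) := by simp only [hR]; push_cast; ring
      refine Or.inr ⟨?_, h0, ?_⟩
      · have := norm_nonneg (toPt (f w)); linarith
      · linarith
    have hinj : Set.InjOn f src := by
      intro w hw w' hw' he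
      simp only [src, Finset.coe_product, Set.mem_prod, Finset.mem_coe, Fintype.mem_piFinset,
        Finset.mem_Ico] at hw hw'
      have key : ∀ i, w.1 i = w'.1 i ∧ w.2 i = w'.2 i := by
        intro i
        have h1 : (h : ℤ) * w.1 i + w.2 i = (h : ℤ) * w'.1 i + w'.2 i := congrFun he i
        have ha := hw.2 i
        have hb := hw'.2 i
        have h2 : (h : ℤ) * (w.1 i - w'.1 i) = w'.2 i - w.2 i := by linarith
        have h3 : |(h : ℤ) * (w.1 i - w'.1 i)| < h := by rw [h2, abs_lt]; omega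
        have h4 : w.1 i - w'.1 i = 0 := by
          by_contra hne
          have h5 := Int.one_le_abs hne
          rw [abs_mul, Nat.abs_cast] at h3
          nlinarith
        rw [h4, mul_zero] at h2
        omega
      exact Prod.ext (funext fun i => (key i).1) (funext fun i => (key i).2)
    have h1 := Finset.card_le_card_of_injOn f (fun w hw => hmaps w hw) hinj
    have h2 := h1.trans (Finset.card_insert_le _ _)
    simp only [src, Finset.card_product, Fintype.card_piFinset, Int.card_Ico, sub_zero,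
      Int.toNat_natCast, Finset.prod_const, Finset.card_univ, Fintype.card_fin] at h2
    have h3 : ((ball ((k : ℝ) - 2)).card : ℝ) * (h : ℝ) ^ 3 ≤ (T.card : ℝ) + 1 := by exact_mod_cast h2
    linarith
  have hq : qlin (kac R) = (∑ j ∈ Finset.range (R + 1), ∑ v ∈ ball ((R : ℝ) + 1), bump j v) / (R : ℝ) ^ 3 := by
    rw [qlin, tsum_eq_sum (s := Finset.range (R + 1)) fun j hj => ?_, Finset.sum_div]
    · refine Finset.sum_congr rfl fun j hj => ?_
      rw [kac_apply, if_pos (Nat.lt_succ_iff.mp (Finset.mem_range.mp hj)), qc]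
      have := cnt_pos j
      have e : ∑ v ∈ ball ((j : ℝ) + 1), bump j v = ∑ v ∈ ball ((R : ℝ) + 1), bump j v := by
        have hjR : (j : ℝ) + 1 ≤ (R : ℝ) + 1 := by
          exact_mod_cast Finset.mem_range.mp hj
        refine Finset.sum_subset (fun v hv => mem_ball.mpr ((mem_ball.mp hv).trans hjR)) fun v _ hv => ?_
        by_contra hne
        exact hv (bump_ne_zero hne).1
      rw [e]
      field_simp
    · rw [kac_apply, if_neg (by simpa using hj), zero_mul]
  rw [hq, ← mul_div_assoc]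
  refine div_le_div_of_nonneg_right ?_ (by positivity)
  refine (mul_le_mul_of_nonneg_left hcardT (by norm_num)).trans ?_
  rw [Finset.sum_comm]
  refine le_trans ?_ (Finset.sum_le_sum_of_subset_of_nonneg
    (show T ⊆ ball ((R : ℝ) + 1) from fun v hv => (Finset.mem_filter.mp hv).1)
    fun v _ _ => Finset.sum_nonneg fun j _ => bump_nonneg j v)
  rw [mul_comm, ← nsmul_eq_mul]
  refine Finset.card_nsmul_le_sum _ _ _ fun v hv => ?_
  obtain ⟨-, hv0, hvR⟩ := Finset.mem_filter.mp hv
  set r := ‖toPt (v + v)‖ with hr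
  have hr0 : 0 ≤ r := norm_nonneg _
  set f := ⌊r⌋₊ with hf
  have h1 := Nat.floor_le hr0
  have h2 := Nat.lt_floor_add_one r
  rw [← hf] at h1 h2
  have hbump : ∀ j, tent j r - 1 / 8 ≤ bump j v := fun j => by
    rw [bump, if_neg hv0]; exact le_max_left _ _
  have e1 : tent f r = 1 - (r - f) := by
    rw [tent, abs_of_nonneg (by linarith), max_eq_left (by linarith)]
  by_cases hfR : f + 1 ≤ R
  · have e2 : tent (f + 1) r = r - f := by
      rw [tent, Nat.cast_add_one, abs_of_nonpos (by linarith), max_eq_left (by linarith)]; ring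
    refine le_trans ?_ (Finset.add_le_sum (fun j _ => bump_nonneg j v)
      (Finset.mem_range.mpr (by omega : f < R + 1)) (Finset.mem_range.mpr (by omega : f + 1 < R + 1))
      (by omega))
    have := hbump f
    have := hbump (f + 1)
    linarith
  · have hfe : (R : ℝ) ≤ f := by exact_mod_cast (show R ≤ f by omega)
    have hfR' : f ≤ R := by exact_mod_cast h1.trans hvR
    refine le_trans ?_ (Finset.single_le_sum (fun j _ => bump_nonneg j v)
      (Finset.mem_range.mpr (by omega : f < R + 1)))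
    have := hbump f
    linarith

lemma norm_kac_uniform (R : ℕ) (hR : 1 ≤ R) : ‖kac R‖ ≤ 7 * 729 := by
  refine (norm_kac_le R).trans ?_
  have hR' : (1 : ℝ) ≤ R := Nat.one_le_cast.mpr hR
  rw [div_le_iff₀ (by positivity)]
  have h1 : ∑ j ∈ Finset.range (R + 1), cnt j ≤ 7 * ((ball ((R : ℝ) + 3)).card : ℝ) := by
    have e : ∀ j ∈ Finset.range (R + 1), cnt j
        ≤ ∑ v ∈ ball ((R : ℝ) + 3), if v ∈ shell j then (1 : ℝ) else 0 := by
      intro j hj
      have hjR : (j : ℝ) ≤ R := by exact_mod_cast Nat.lt_succ_iff.mp (Finset.mem_range.mp hj)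
      rw [Finset.sum_boole, cnt]
      exact Nat.cast_le.mpr (Finset.card_le_card fun v hv => Finset.mem_filter.mpr
        ⟨mem_ball.mpr (((mem_shell.mp hv).1).trans (by linarith)), hv⟩)
    refine (Finset.sum_le_sum e).trans ?_
    rw [Finset.sum_comm, mul_comm, ← nsmul_eq_mul]
    refine Finset.sum_le_card_nsmul _ _ _ fun v _ => ?_
    rw [Finset.sum_boole]
    have : ((Finset.range (R + 1)).filter fun j => v ∈ shell j).card ≤ 7 := by
      refine (Finset.card_le_card (t := Finset.Icc ⌈‖toPt v‖ - 3⌉₊ (⌈‖toPt v‖ - 3⌉₊ + 6))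
        fun j hj => ?_).trans (by rw [Nat.card_Icc]; omega)
      have h := mem_shell.mp (Finset.mem_filter.mp hj).2
      rw [Finset.mem_Icc]
      refine ⟨Nat.ceil_le.mpr (by linarith [h.2]), ?_⟩
      have h1 := Nat.le_ceil (‖toPt v‖ - 3)
      have : (j : ℝ) ≤ ((⌈‖toPt v‖ - 3⌉₊ + 6 : ℕ) : ℝ) := by push_cast; linarith [h.2]
      exact_mod_cast this
    exact_mod_cast this
  refine h1.trans ?_
  have h2 : ((ball ((R : ℝ) + 3)).card : ℝ) ≤ (9 * (R : ℝ)) ^ 3 := by
    refine (Nat.cast_le.mpr (card_ball_le _)).trans ?_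
    push_cast
    refine pow_le_pow_left₀ (by positivity) ?_ 3
    have h : (⌈(R : ℝ) + 3⌉₊ : ℝ) ≤ R + 3 := by
      have : ⌈(R : ℝ) + 3⌉₊ ≤ R + 3 := Nat.ceil_le.mpr (by push_cast; exact le_rfl)
      exact_mod_cast this
    linarith
  nlinarith

/-- A scale at which neighbouring balls have comparable counts. -/
lemma exists_scale : ∃ k : ℕ, 2 ≤ k ∧
    3 * ((ball ((k : ℝ) + 3)).card : ℝ) ≤ 4 * (ball ((k : ℝ) - 2)).card := by
  by_contra hne
  push Not at hne
  set g : ℕ → ℝ := fun i => (ball (5 * (i : ℝ))).card with hg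
  have hstep : ∀ i, 4 * g i ≤ 3 * g (i + 1) := by
    intro i
    have h := hne (5 * i + 2) (by omega)
    push_cast at h
    have e1 : (5 * (i : ℝ) + 2 - 2) = 5 * i := by ring
    have e2 : (5 * (i : ℝ) + 2 + 3) = 5 * (i + 1) := by ring
    rw [e1, e2] at h
    simp only [hg]; push_cast; linarith
  have hpow : ∀ i, (4 / 3 : ℝ) ^ i ≤ g i := by
    intro i
    induction i with
    | zero =>
      have : (0 : Lat) ∈ ball (5 * ((0 : ℕ) : ℝ)) := by
        rw [mem_ball]; have : toPt 0 = 0 := by ext i; simp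
        rw [this]; simp
      simpa [hg] using Finset.card_pos.mpr ⟨_, this⟩
    | succ i ih => rw [pow_succ]; have := hstep i; linarith
  have hup : ∀ i : ℕ, 1 ≤ i → g i ≤ 1331 * (i : ℝ) ^ 3 := by
    intro i hi
    refine (Nat.cast_le.mpr (card_ball_le _)).trans ?_
    have hc : ⌈5 * (i : ℝ)⌉₊ = 5 * i := by
      rw [← Nat.cast_ofNat, ← Nat.cast_mul, Nat.ceil_natCast]
    rw [hc]; push_cast
    have hi' : (1 : ℝ) ≤ i := Nat.one_le_cast.mpr hi
    calc (2 * (5 * (i : ℝ)) + 1) ^ 3 ≤ (11 * i) ^ 3 :=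
          pow_le_pow_left₀ (by positivity) (by linarith) 3
      _ = _ := by ring
  have ht := (tendsto_pow_const_div_const_pow_of_one_lt 3 (show (1 : ℝ) < 4 / 3 by norm_num)).const_mul 1331
  rw [mul_zero] at ht
  obtain ⟨i, hi, hi2⟩ := (((tendsto_order.mp ht).2 1 one_pos).and (eventually_ge_atTop 1)).exists
  rw [← mul_div_assoc, div_lt_one (by positivity)] at hi
  have := hpow i
  have := hup i hi2
  linarith

end

end Vale.Agent.P171
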