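import Vale.Agent.P171.Kac

/-!
The upper bound on the pressure along the long weak direction.
-/

namespace Vale.Agent.P171

open MeasureTheory Real Filter
open scoped ENNReal Classical Topology

noncomputable section

lemma log_le_lin {X : ℝ} (hX : 0 ≤ X) {l : ℕ} (hl : 0 < l) :
    Real.log (X * (l : ℝ) ^ 3 + 3) ≤ X + 3 + 3 * l := by
  have h1 : (1 : ℝ) ≤ l := Nat.one_le_cast.mpr hl
  have h2 : (1 : ℝ) ≤ (l : ℝ) ^ 3 := one_le_pow₀ h1
  calc Real.log (X * (l : ℝ) ^ 3 + 3) ≤ Real.log ((X + 3) * (l : ℝ) ^ 3) :=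
        Real.log_le_log (by positivity) (by nlinarith)
    _ = Real.log (X + 3) + 3 * Real.log l := by
        rw [Real.log_mul (by positivity) (by positivity), Real.log_pow]; norm_num
    _ ≤ _ := by
        have := Real.log_le_sub_one_of_pos (show (0 : ℝ) < X + 3 by linarith)
        have := Real.log_le_sub_one_of_pos (show (0 : ℝ) < (l : ℝ) by linarith)
        linarith

lemma pairSum_box_blk (l : ℕ) (hl : 0 < l) {n : ℕ} (x : Fin n → Pt) (hx : ∀ i, x i ∈ box l) :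
    pairSum (same (blk l 0)) x = (n : ℝ) ^ 2 := by
  have hb : ∀ i, blk l 0 (x i) = fun _ => 0 := by
    intro i; funext c
    have h := hx i c
    have h1 : 0 ≤ ⌊x i c⌋ := Int.floor_nonneg.mpr h.1
    have h2 : ⌊x i c⌋ < (l : ℤ) := Int.floor_lt.mpr (by simpa using h.2)
    simp [blk, Int.ediv_eq_zero_of_lt h1 h2]
  simp [pairSum, same, hb, sq]

lemma pairSum_const (e : ℝ) {n : ℕ} (x : Fin n → Pt) :
    pairSum (fun _ _ => e) x = e * (n : ℝ) ^ 2 := by
  simp [pairSum]; ring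

lemma cInt_le_of {n : ℕ} {A : Set Pt} (hA : MeasurableSet A) {t t' c : ℝ} {K K' : Pt → Pt → ℝ}
    (hK' : Measurable (Function.uncurry K'))
    (h : ∀ x : Fin n → Pt, (∀ i, x i ∈ A) → logW t K x ≤ logW t' K' x + c) :
    ((n.factorial : ℝ≥0∞))⁻¹ * cInt (Fin n) A t K ≤ ENNReal.ofReal (exp c) * gc A t' K' := by
  refine le_trans ?_ (mul_le_mul_right (ENNReal.le_tsum n) _)
  rw [mul_left_comm]
  gcongr
  unfold cInt
  rw [← lintegral_const_mul _ (measurable_wt t' hK')]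
  refine setLIntegral_mono' (measurableSet_conf hA) fun x hx => ?_
  unfold wt
  rw [← ENNReal.ofReal_mul (exp_pos c).le, ← exp_add]
  exact ENNReal.ofReal_le_ofReal (exp_le_exp.mpr (by have := h x fun i => hx i (Set.mem_univ i); linarith))

lemma geom_tail : ∑' n : ℕ, ENNReal.ofReal (exp (-(n : ℝ))) ≤ 2 := by
  have h : ∀ n : ℕ, exp (-(n : ℝ)) = exp (-1) ^ n := fun n => by
    rw [← Real.exp_nat_mul]; congr 1; ring
  have hlt : exp (-1 : ℝ) ≤ 1 / 2 := by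
    rw [Real.exp_neg, one_div]
    exact inv_anti₀ two_pos (by have := Real.add_one_le_exp (1 : ℝ); linarith)
  simp only [h]
  rw [← ENNReal.ofReal_tsum_of_nonneg (fun n => by positivity)
    (summable_geometric_of_lt_one (exp_pos _).le (by linarith)),
    tsum_geometric_of_lt_one (exp_pos _).le (by linarith)]
  refine le_trans (ENNReal.ofReal_le_ofReal (?_ : _ ≤ (2 : ℝ))) (by simp)
  rw [inv_le_comm₀ (by linarith) two_pos]; linarith

lemma cube_succ_le (l : ℕ) (hl : 0 < l) : ((l : ℝ) + 1) ^ 3 - (l : ℝ) ^ 3 ≤ 7 * (l : ℝ) ^ 2 := by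
  have h1 : (1 : ℝ) ≤ l := Nat.one_le_cast.mpr hl
  have h2 : (l : ℝ) ≤ (l : ℝ) ^ 2 := le_self_pow₀ h1 two_ne_zero
  nlinarith

lemma case_high {P0 Pp ρ η u xn sk X : ℝ} (hsk : 0 ≤ sk) (hu : 0 ≤ u) (hx0 : 0 ≤ xn) (hxX : xn ≤ X)
    (hskX : sk * X ^ 2 ≤ u * η / 2) (hp : Pp ≤ P0 + u * ρ + u * η / 2) (h : ρ + η ≤ xn) :
    Pp - u * xn + sk * xn ^ 2 ≤ P0 + sk * (ρ + η) ^ 2 := by
  have h1 := (mul_le_mul_of_nonneg_left (pow_le_pow_left₀ hx0 hxX 2) hsk).trans hskX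
  have h2 := mul_le_mul_of_nonneg_left h hu
  have h3 : 0 ≤ sk * (ρ + η) ^ 2 := by positivity
  linarith

lemma case_low {P0 Pm ρ η u xn sk X : ℝ} (hsk : 0 ≤ sk) (hu : 0 ≤ u) (hx0 : 0 ≤ xn) (hxX : xn ≤ X)
    (hskX : sk * X ^ 2 ≤ u * η / 2) (hp : Pm ≤ P0 - u * ρ + u * η / 2) (h : xn ≤ ρ - η) :
    Pm + u * xn + sk * xn ^ 2 ≤ P0 + sk * (ρ + η) ^ 2 := by
  have h1 := (mul_le_mul_of_nonneg_left (pow_le_pow_left₀ hx0 hxX 2) hsk).trans hskX
  have h2 := mul_le_mul_of_nonneg_left h hu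
  have h3 : 0 ≤ sk * (ρ + η) ^ 2 := by positivity
  linarith

lemma scale_case {V W P0 Pv q v n g sk : ℝ} (hV : 0 < V) (hn : n = V * W)
    (h : Pv - v * W + sk * W ^ 2 ≤ P0 + g) (hq : q = sk / V * n ^ 2) :
    V * Pv - v * n + q ≤ V * (P0 + g) := by
  have e : q = V * (sk * W ^ 2) := by rw [hq, hn]; field_simp
  rw [e, hn]
  have := mul_le_mul_of_nonneg_left h hV.le
  linarith

lemma high_exponent {V C X n : ℝ} (hV : 1 ≤ V) (hC : 0 ≤ C) (hX : C + 1 ≤ X) (hn : X * V ≤ n) :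
    -(n ^ 2 / V) + V * C ≤ -n := by
  have hV0 : 0 < V := by linarith
  have h1 : (C + 1) * V ≤ n := le_trans (mul_le_mul_of_nonneg_right hX hV0.le) hn
  have hn0 : 0 ≤ n := le_trans (by positivity) h1
  have h2 : (C + 1) * n ≤ n ^ 2 / V := by
    rw [le_div_iff₀ hV0]
    have := mul_le_mul_of_nonneg_left h1 hn0
    linarith
  have h3 : 0 ≤ C * (n - V) := mul_nonneg hC (by nlinarith [mul_nonneg hC hV0.le])
  linarith

lemma term_low (a : Par) (t v C P : ℝ) (l : ℕ) (hl : 0 < l) (δ sk g : ℝ) (n : ℕ)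
    (hδ0 : 0 ≤ δ) (hδ1 : δ ≤ 1) (hP : Pr (t + v) a ≤ P) (P0 : ℝ)
    (hC : gc (box l) (t + v) (KC a 2) ≤ ENNReal.ofReal (exp ((l : ℝ) ^ 3 * C)))
    (hval : (l : ℝ) ^ 3 * Pr (t + v) a - v * n + sk / (l : ℝ) ^ 3 * (n : ℝ) ^ 2
      ≤ (l : ℝ) ^ 3 * (P0 + g)) :
    ((n.factorial : ℝ≥0∞))⁻¹ * cInt (Fin n) (box l) t (fun p q => KC a δ p q + sk / (l : ℝ) ^ 3)
      ≤ ENNReal.ofReal (exp ((l : ℝ) ^ 3 * (P0 + δ * C + g) + 7 * (l : ℝ) ^ 2 * P)) := by
  have hgc : gc (box l) (t + v) (KC a δ) ≤ ENNReal.ofReal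
      (exp ((1 - δ) * lg (box l) (t + v) (KK a) + δ * ((l : ℝ) ^ 3 * C))) := by
    refine gc_convex (t₁ := t + v) (K₁ := KK a) (t₂ := t + v) (K₂ := KC a 2) (measurableSet_box _)
      (measurable_KK a) (measurable_KC a 2) hδ0 hδ1 (gc_eq_exp (gcK_finite a _ _)).le hC
      fun n x _ _ => ?_
    rw [logW_eq_pairSum, logW_eq_pairSum, logW_eq_pairSum]
    simp only [pairSum_KC]
    have := mul_nonneg hδ0 (pairSum_same_nonneg cell x)
    linarith
  refine (cInt_le_of (t' := t + v) (K' := KC a δ)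
    (c := -v * n + sk / (l : ℝ) ^ 3 * (n : ℝ) ^ 2)
    (measurableSet_box _) (measurable_KC a δ) fun x _ => le_of_eq ?_).trans ?_
  · rw [logW_eq_pairSum, logW_eq_pairSum, pairSum_add, pairSum_const, Fintype.card_fin]; ring
  · refine (mul_le_mul_right hgc _).trans ?_
    rw [← ENNReal.ofReal_mul (exp_pos _).le, ← exp_add]
    refine ENNReal.ofReal_le_ofReal (exp_le_exp.mpr ?_)
    have h1 := lg_le_Pr a (t + v) l
    have h2 := mul_nonneg hδ0 (lg_nonneg (box l) (t + v) (KK a))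
    have h3 := mul_le_mul (cube_succ_le l hl) hP (Pr_nonneg a _) (by positivity)
    linarith

lemma term_high (a : Par) (t C X : ℝ) (l : ℕ) (hl : 0 < l) (δ sk : ℝ) (n : ℕ)
    (hds : δ + sk + 1 ≤ 2) (hsk : 0 ≤ sk) (hX : C + 1 ≤ X) (hC0 : 0 ≤ C)
    (hn : X * (l : ℝ) ^ 3 ≤ n)
    (hC : gc (box l) t (KC a 2) ≤ ENNReal.ofReal (exp ((l : ℝ) ^ 3 * C))) :
    ((n.factorial : ℝ≥0∞))⁻¹ * cInt (Fin n) (box l) t (fun p q => KC a δ p q + sk / (l : ℝ) ^ 3)
      ≤ ENNReal.ofReal (exp (-(n : ℝ))) := by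
  refine (cInt_le_of (t' := t) (K' := KC a 2) (c := -((n : ℝ) ^ 2 / (l : ℝ) ^ 3))
    (measurableSet_box _) (measurable_KC a 2) fun x hx => ?_).trans ?_
  · rw [logW_eq_pairSum, logW_eq_pairSum, pairSum_add, pairSum_const, pairSum_KC, pairSum_KC]
    have h2 : (n : ℝ) ^ 2 / (l : ℝ) ^ 3 ≤ pairSum (same cell) x := by
      rw [div_le_iff₀' (by positivity), ← pairSum_box_blk l hl x hx]
      exact blk_le_cell l 0 hl x
    have h3 : sk / (l : ℝ) ^ 3 * (n : ℝ) ^ 2 = sk * ((n : ℝ) ^ 2 / (l : ℝ) ^ 3) := by ring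
    have h4 := mul_le_mul_of_nonneg_right hds (pairSum_same_nonneg cell x)
    have h5 := mul_le_mul_of_nonneg_left h2 (show (0 : ℝ) ≤ sk + 1 by linarith)
    rw [h3]
    linarith
  · refine (mul_le_mul_right hC _).trans ?_
    rw [← ENNReal.ofReal_mul (exp_pos _).le, ← exp_add]
    exact ENNReal.ofReal_le_ofReal (exp_le_exp.mpr
      (high_exponent (one_le_pow₀ (Nat.one_le_cast.mpr hl)) hC0 hX hn))

lemma tsum_two_regimes (f : ℕ → ℝ≥0∞) (N : ℕ) (Φ : ℝ) (hΦ : 0 ≤ Φ)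
    (h1 : ∀ n, n < N → f n ≤ ENNReal.ofReal (exp Φ))
    (h2 : ∀ n, N ≤ n → f n ≤ ENNReal.ofReal (exp (-(n : ℝ)))) :
    ∑' n, f n ≤ ENNReal.ofReal (((N : ℝ) + 2) * exp Φ) := by
  have hterm : ∀ n : ℕ, f n
      ≤ (if n < N then ENNReal.ofReal (exp Φ) else 0) + ENNReal.ofReal (exp (-(n : ℝ))) := by
    intro n
    by_cases hn : n < N
    · rw [if_pos hn]; exact (h1 n hn).trans le_self_add
    · rw [if_neg hn, zero_add]; exact h2 n (not_lt.mp hn)
  refine (ENNReal.tsum_le_tsum hterm).trans ?_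
  rw [ENNReal.tsum_add]
  have hfin : ∑' n : ℕ, (if n < N then ENNReal.ofReal (exp Φ) else 0)
      = (N : ℝ≥0∞) * ENNReal.ofReal (exp Φ) := by
    rw [tsum_eq_sum (s := Finset.range N) fun n hn => if_neg fun h => hn (Finset.mem_range.mpr h)]
    rw [Finset.sum_congr rfl fun n hn => if_pos (Finset.mem_range.mp hn)]
    simp
  rw [hfin, ENNReal.ofReal_mul (by positivity), ENNReal.ofReal_add (by positivity) two_pos.le,
    ENNReal.ofReal_natCast, ENNReal.ofReal_ofNat, add_mul]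
  gcongr
  refine geom_tail.trans (le_mul_of_one_le_right zero_le ?_)
  rw [← ENNReal.ofReal_one]
  exact ENNReal.ofReal_le_ofReal (Real.one_le_exp hΦ)

/-- The block estimate. -/
lemma block_value (a : Par) (t ρ η u₀ X C P : ℝ) (l : ℕ) (hl : 0 < l) (δ sk : ℝ)
    (hδ0 : 0 ≤ δ) (hδ1 : δ ≤ 1 / 2) (hsk0 : 0 ≤ sk) (hsk1 : sk ≤ 1 / 2)
    (hu : 0 ≤ u₀) (hX : C + 1 ≤ X) (hC0 : 0 ≤ C) (hskX : sk * X ^ 2 ≤ u₀ * η / 2)
    (hplus : Pr (t + u₀) a ≤ Pr t a + u₀ * ρ + u₀ * η / 2)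
    (hminus : Pr (t - u₀) a ≤ Pr t a - u₀ * ρ + u₀ * η / 2)
    (hP0 : Pr t a ≤ P) (hP1 : Pr (t + u₀) a ≤ P) (hP2 : Pr (t - u₀) a ≤ P)
    (hC : ∀ t' : ℝ, t' ≤ t + u₀ →
      gc (box l) t' (KC a 2) ≤ ENNReal.ofReal (exp ((l : ℝ) ^ 3 * C))) :
    gc (box l) t (fun p q => KC a δ p q + sk / (l : ℝ) ^ 3)
      ≤ ENNReal.ofReal (exp (X + 3 + 3 * l + ((l : ℝ) ^ 3 * (Pr t a + δ * C + sk * (ρ + η) ^ 2)
          + 7 * (l : ℝ) ^ 2 * P))) := by
  have hV1 : 1 ≤ (l : ℝ) ^ 3 := one_le_pow₀ (Nat.one_le_cast.mpr hl)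
  have hV0 : 0 < (l : ℝ) ^ 3 := by linarith
  have hXV : 0 ≤ X * (l : ℝ) ^ 3 := mul_nonneg (by linarith) hV0.le
  have hP : 0 ≤ P := (Pr_nonneg a t).trans hP0
  have hΦ0 : 0 ≤ (l : ℝ) ^ 3 * (Pr t a + δ * C + sk * (ρ + η) ^ 2) + 7 * (l : ℝ) ^ 2 * P := by
    have := Pr_nonneg a t; positivity
  refine (tsum_two_regimes _ ⌈X * (l : ℝ) ^ 3⌉₊ _ hΦ0 (fun n hn => ?_) (fun n hn => ?_)).trans ?_
  · set xn := (n : ℝ) / (l : ℝ) ^ 3 with hxn
    have hn' : (n : ℝ) = (l : ℝ) ^ 3 * xn := by rw [hxn]; field_simp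
    have hxX : xn ≤ X := by rw [hxn, div_le_iff₀ hV0]; exact (Nat.lt_ceil.mp hn).le
    have hx0 : 0 ≤ xn := div_nonneg (Nat.cast_nonneg n) hV0.le
    rcases lt_or_ge (ρ + η) xn with hhi | hhi
    · exact term_low a t u₀ C P l hl δ sk _ n hδ0 (by linarith) hP1 _ (hC _ le_rfl)
        (scale_case hV0 hn' (case_high hsk0 hu hx0 hxX hskX hplus hhi.le) rfl)
    rcases lt_or_ge xn (ρ - η) with hlo | hlo
    · refine term_low a t (-u₀) C P l hl δ sk _ n hδ0 (by linarith) ?_ _ (hC _ (by linarith))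
        (scale_case hV0 hn' ?_ rfl)
      · rw [← sub_eq_add_neg]; exact hP2
      · rw [← sub_eq_add_neg t, neg_mul, sub_neg_eq_add]
        exact case_low hsk0 hu hx0 hxX hskX hminus hlo.le
    · refine term_low a t 0 C P l hl δ sk _ n hδ0 (by linarith) (by rw [add_zero]; exact hP0) _
        (hC _ (by linarith)) (scale_case hV0 hn' ?_ rfl)
      rw [add_zero, zero_mul, sub_zero]
      exact (add_le_add_iff_left _).mpr
        (mul_le_mul_of_nonneg_left (pow_le_pow_left₀ hx0 hhi 2) hsk0)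
  · exact term_high a t C X l hl δ sk n (by linarith) hsk0 hX hC0 (Nat.ceil_le.mp hn)
      (hC t (by linarith))
  · rw [exp_add (X + 3 + 3 * (l : ℝ))]
    refine ENNReal.ofReal_le_ofReal (mul_le_mul_of_nonneg_right ?_ (exp_pos _).le)
    have h1 : (⌈X * (l : ℝ) ^ 3⌉₊ : ℝ) + 2 ≤ X * (l : ℝ) ^ 3 + 3 := by
      have := Nat.ceil_lt_add_one hXV
      linarith
    refine h1.trans ?_
    rw [← Real.exp_log (show (0 : ℝ) < X * (l : ℝ) ^ 3 + 3 by linarith)]
    exact exp_le_exp.mpr (log_le_lin (by linarith) hl)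

/-- From the block estimate to the pressure. -/
lemma Pr_kac_le (a : Par) (ha : ∀ j, 0 ≤ a j) (t s : ℝ) (hs : 0 ≤ s) (k l J : ℕ) (hl : 3 ≤ l) (p : ℝ)
    (hp : gc (box l) t (fun x y =>
        KC a ((‖a‖ * (6 * ((J : ℝ) + 4)) / l + (‖a‖ - ∑ j ∈ Finset.range J, a j)) / 2) x y
          + s * ((ball ((k : ℝ) + 3)).card / (2 * (k : ℝ) ^ 3)) / (l : ℝ) ^ 3)
      ≤ ENNReal.ofReal (exp p)) :
    Pr t ⇑(a + s • kac (k * l)) ≤ p / (l : ℝ) ^ 3 := by
  set δ := (‖a‖ * (6 * ((J : ℝ) + 4)) / l + (‖a‖ - ∑ j ∈ Finset.range J, a j)) / 2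
  set e := s * ((ball ((k : ℝ) + 3)).card / (2 * (k : ℝ) ^ 3)) / (l : ℝ) ^ 3
  set a' : Par := a + s • kac (k * l) with ha'
  have ha'0 : ∀ j, 0 ≤ a' j := by
    intro j
    simp only [ha', lp.coeFn_add, lp.coeFn_smul, Pi.add_apply, Pi.smul_apply, smul_eq_mul]
    exact add_nonneg (ha j) (mul_nonneg hs (kac_nonneg _ _))
  have hKm : ∀ u, Measurable (Function.uncurry (Kup a δ e l u)) := fun u =>
    (measurable_same (measurable_blk l u)).mul ((measurable_KC a δ).add_const e)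
  have hblock : ∀ (u : ℕ) (w : Lat), gc {z | blk l u z = w} t (Kup a δ e l u)
      ≤ ENNReal.ofReal (exp p) := by
    intro u w
    have hAm : MeasurableSet {z | blk l u z = w} := measurable_blk l u (measurableSet_singleton w)
    refine le_trans ?_ hp
    refine le_trans (gc_mono (t' := t) (K' := fun p q => KC a δ p q + e) hAm fun n x _ hx => le_of_eq ?_) ?_
    · simp only [logW, Kup, same]
      refine Finset.sum_congr rfl fun i _ => ?_
      congr 1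
      refine Finset.sum_congr rfl fun m _ => ?_
      rw [if_pos ((hx i).trans (hx m).symm), one_mul]
    refine le_of_eq ((gc_translate _ (toPt fun i => (l : ℤ) * w i - u) t
      (K' := fun p q => KC a δ p q + e) fun p q => ?_).trans ?_)
    · have hc : ∀ p : Pt, cell (p + toPt fun i => (l : ℤ) * w i - u)
          = cell p + fun i => (l : ℤ) * w i - u := by
        intro p; funext i; simp only [cell, PiLp.add_apply, toPt_apply, Pi.add_apply, Int.floor_add_intCast]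
      simp only [KC, KK_translate, same, hc, add_left_inj]
    · congr 1
      ext z
      simp only [Set.mem_preimage, Set.mem_ofPred_eq, funext_iff, blk, box, Set.mem_Ico,
        PiLp.add_apply, toPt_apply, Int.floor_add_intCast]
      refine forall_congr' fun i => ?_
      have e1 : ⌊z i⌋ + ((l : ℤ) * w i - u) + u = ⌊z i⌋ + (l : ℤ) * w i := by ring
      rw [e1, Int.add_mul_ediv_left _ _ (by omega : (l : ℤ) ≠ 0), add_eq_right,
        Int.ediv_eq_iff_of_pos (by omega : (0 : ℤ) < l), zero_mul, zero_add]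
      simp only [Int.le_floor, Int.floor_lt, Int.cast_zero, Int.cast_natCast]
  have hmain : ∀ m : ℕ, lg (box ((m * l : ℕ) : ℝ)) t (KK a')
      ≤ Real.log l + ((m : ℝ) + 1) ^ 3 * p := by
    intro m
    refine lg_le ?_
    rw [exp_add, Real.exp_log (by positivity), ENNReal.ofReal_mul (by positivity), ENNReal.ofReal_natCast]
    refine (gc_le_sum (measurableSet_box _) (Finset.range l) (t' := fun _ => t) hKm
      fun n x _ _ => block_bound a ha t s hs k l J hl x).trans ?_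
    refine (Finset.sum_le_card_nsmul _ _ _ fun u hu => ?_).trans
      (le_of_eq (by rw [Finset.card_range, nsmul_eq_mul]))
    set S : Finset Lat := Fintype.piFinset fun _ : Fin 3 => Finset.Ico (0 : ℤ) (m + 1) with hS
    have hsub : box ((m * l : ℕ) : ℝ) ⊆ ⋃ w ∈ S, {z | blk l u z = w} := by
      intro z hz
      simp only [Set.mem_iUnion, Set.mem_ofPred_eq, exists_prop, exists_eq_right', hS,
        Fintype.mem_piFinset, Finset.mem_Ico]
      intro i
      have h0 : 0 ≤ ⌊z i⌋ := Int.floor_nonneg.mpr (hz i).1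
      have h1 : ⌊z i⌋ < ((m * l : ℕ) : ℤ) := Int.floor_lt.mpr (by exact_mod_cast (hz i).2)
      have hu' := Finset.mem_range.mp hu
      push_cast at h1
      simp only [blk]
      refine ⟨Int.ediv_nonneg (by omega) (by omega), ?_⟩
      rw [Int.ediv_lt_iff_lt_mul (by omega)]
      rw [add_mul, one_mul]; omega
    refine (gc_mono_set hsub t _).trans ?_
    rw [gc_biUnion S (fun w => {z | blk l u z = w}) (fun w => measurable_blk l u (measurableSet_singleton w))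
      (fun w _ w' _ hne => Set.disjoint_left.mpr fun z h h' => hne (h.symm.trans h')) t (hKm u)
      (fun w _ w' _ hne z hz z' hz' => by
        simp only [Set.mem_ofPred_eq] at hz hz'
        simp [Kup, same, hz, hz', hne])]
    refine (Finset.prod_le_prod' fun w _ => hblock u w).trans (le_of_eq ?_)
    have hcard : S.card = (m + 1) ^ 3 := by simp [hS, Fintype.card_piFinset]
    rw [Finset.prod_const, hcard, ← ENNReal.ofReal_pow (exp_pos _).le, ← Real.exp_nat_mul]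
    push_cast; rfl
  have hlim : Tendsto (fun m : ℕ => lg (box ((m * l : ℕ) : ℝ)) t (KK a') / ((m * l : ℕ) : ℝ) ^ 3)
      atTop (𝓝 (Pr t a')) :=
    (tendsto_Pr a' ha'0 t).comp (tendsto_natCast_atTop_atTop.comp
      (tendsto_id.atTop_mul_const' (by omega : 0 < l)))
  have hlim2 : Tendsto (fun m : ℕ => Real.log l * ((m : ℝ)⁻¹) ^ 3 / (l : ℝ) ^ 3
      + (1 + (m : ℝ)⁻¹) ^ 3 * (p / (l : ℝ) ^ 3)) atTop (𝓝 (p / (l : ℝ) ^ 3)) := by
    simpa using (((tendsto_inv_atTop_nhds_zero_nat (𝕜 := ℝ)).pow 3).const_mul (Real.log l)).div_const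
      ((l : ℝ) ^ 3) |>.add
        ((((tendsto_inv_atTop_nhds_zero_nat (𝕜 := ℝ)).const_add 1).pow 3).mul_const (p / (l : ℝ) ^ 3))
  refine le_of_tendsto_of_tendsto hlim hlim2 ?_
  filter_upwards [eventually_gt_atTop 0] with m hm
  rw [div_le_iff₀ (by positivity)]
  refine (hmain m).trans (le_of_eq ?_)
  push_cast
  field_simp

end

end Vale.Agent.P171
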