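import Vale.Agent.P171.Ekeland
import Vale.Agent.P171.Upper
import Vale.Agent.P171.Trial

/-!
Some parameter has a pressure with a corner in the chemical potential.
-/

namespace Vale.Agent.P171

open MeasureTheory Real Filter
open scoped ENNReal Classical Topology

noncomputable section

/-- The admissible parameters. -/
abbrev Adm := {p : ℝ × Par // ∀ j, 0 ≤ p.2 j}

/-- The functional to be minimised. -/
def gap (p : Adm) : ℝ := Pr p.1.1 p.1.2 - (p.1.1 / 16 + qlin p.1.2 / 32)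

lemma isClosed_adm : IsClosed {p : ℝ × Par | ∀ j, 0 ≤ p.2 j} := by
  rw [Set.ofPred_forall]
  refine isClosed_iInter fun j => isClosed_le (continuous_const (y := (0 : ℝ))) ?_
  have h : Continuous fun a : Par => a j := by
    refine (LipschitzWith.of_dist_le_mul (K := 1) fun a b => ?_).continuous
    rw [Real.dist_eq, dist_eq_norm, NNReal.coe_one, one_mul, ← Real.norm_eq_abs]
    exact lp.norm_apply_le_norm one_ne_zero (a - b) j
  exact h.comp continuous_snd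

instance adm_complete : CompleteSpace Adm := isClosed_adm.completeSpace_coe

instance adm_nonempty : Nonempty Adm := ⟨⟨0, fun j => by simp⟩⟩

lemma continuous_gap : Continuous gap :=
  (continuous_Pr.comp continuous_subtype_val).sub
    (((continuous_fst.comp continuous_subtype_val).div_const _).add
      ((continuous_qlin.comp (continuous_snd.comp continuous_subtype_val)).div_const _))

lemma gap_lower (p : Adm) : Real.log ((1 / 16 : ℝ) ^ 3) / 16 ≤ gap p := by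
  have h1 := Pr_lower p.1.2 p.2 p.1.1
  have h2 := Pr_nonneg p.1.2 p.1.1
  unfold gap
  linarith

lemma gap_ineq {t : ℝ} {a : Par} {ε : ℝ} (hε : 0 ≤ ε) {ha : ∀ j, 0 ≤ a j}
    (hmin : ∀ y : Adm, gap ⟨(t, a), ha⟩ ≤ gap y + ε * dist (⟨(t, a), ha⟩ : Adm) y)
    (t' : ℝ) (b : Par) (hb : ∀ j, 0 ≤ (a + b) j) :
    Pr t a + (t' - t) / 16 + (qlin ⇑(a + b) - qlin a) / 32 - ε * (|t' - t| + ‖b‖)
      ≤ Pr t' ⇑(a + b) := by
  have h := hmin ⟨(t', a + b), hb⟩
  have hd : dist (⟨(t, a), ha⟩ : Adm) ⟨(t', a + b), hb⟩ ≤ |t' - t| + ‖b‖ := by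
    rw [Subtype.dist_eq, Prod.dist_eq, Real.dist_eq, dist_eq_norm]
    refine max_le ?_ ?_
    · rw [abs_sub_comm]; have := norm_nonneg b; linarith
    · rw [sub_add_cancel_left, norm_neg]; have := abs_nonneg (t' - t); linarith
  have h2 := mul_le_mul_of_nonneg_left hd hε
  simp only [gap] at h
  linarith

lemma exists_small_step {f : ℝ → ℝ} {t ρ η : ℝ} (hη : 0 < η) (h : HasDerivAt f ρ t) :
    ∃ u : ℝ, 0 < u ∧ f (t + u) ≤ f t + u * ρ + u * η / 2 ∧ f (t - u) ≤ f t - u * ρ + u * η / 2 := by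
  have h1 := (hasDerivAt_iff_isLittleO.mp h).def (show 0 < η / 2 by linarith)
  obtain ⟨δ, hδ, hb⟩ := Metric.eventually_nhds_iff.mp h1
  refine ⟨δ / 2, half_pos hδ, ?_, ?_⟩
  · have e := hb (y := t + δ / 2) (by rw [Real.dist_eq, add_sub_cancel_left, abs_of_pos (half_pos hδ)]; linarith)
    rw [add_sub_cancel_left, smul_eq_mul, Real.norm_eq_abs, Real.norm_eq_abs, abs_of_pos (half_pos hδ)] at e
    have := (abs_le.mp e).2
    linarith
  · have e := hb (y := t - δ / 2) (by rw [Real.dist_eq, sub_sub_cancel_left, abs_neg, abs_of_pos (half_pos hδ)]; linarith)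
    rw [sub_sub_cancel_left, smul_eq_mul, Real.norm_eq_abs, Real.norm_eq_abs, abs_neg,
      abs_of_pos (half_pos hδ)] at e
    have := (abs_le.mp e).2
    linarith

/-- The error of the block bound at block side `2 h`. -/
def blockErr (X P C δ : ℝ) (h : ℕ) : ℝ :=
  (X + 3 + 3 * ((2 * h : ℕ) : ℝ)) / ((2 * h : ℕ) : ℝ) ^ 3 + 7 * P / ((2 * h : ℕ) : ℝ) + δ * C

lemma slope_bounds {f₀ fp fm u ρ ε c : ℝ} (hu : 0 < u) (hp : fp ≤ f₀ + u * ρ + u * ε / 2)
    (hm : fm ≤ f₀ - u * ρ + u * ε / 2) (h1 : f₀ + u * c - ε * u ≤ fp)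
    (h2 : f₀ - u * c - ε * u ≤ fm) : c - 2 * ε ≤ ρ ∧ ρ ≤ c + 2 * ε := by
  constructor
  · refine le_of_mul_le_mul_left ?_ hu
    nlinarith
  · refine le_of_mul_le_mul_left ?_ hu
    nlinarith

lemma sq_bound {ρ ε : ℝ} (hε : 0 ≤ ε) (hε1 : ε ≤ 1 / 100) (hlo : 1 / 16 - 2 * ε ≤ ρ)
    (hhi : ρ ≤ 1 / 16 + 2 * ε) : (ρ + ε) ^ 2 ≤ 1 / 256 + ε := by
  have h1 := pow_le_pow_left₀ (show 0 ≤ ρ + ε by linarith) (show ρ + ε ≤ 1 / 16 + 3 * ε by linarith) 2
  nlinarith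

lemma choose_side {A T X P C k tgt g : ℝ} (hk : 0 < k) (hT1 : T / 2 < 1 / 2) (hT2 : T / 2 * C < tgt)
    (hg : 0 < g) : ∃ h : ℕ, 2 ≤ h ∧ (A / ((2 * h : ℕ) : ℝ) + T) / 2 < 1 / 2 ∧
      blockErr X P C ((A / ((2 * h : ℕ) : ℝ) + T) / 2) h < tgt ∧
      3 / 4 / 32 / (k * ((2 * h : ℕ) : ℝ)) ^ 3 < g := by
  have hl : Tendsto (fun h : ℕ => ((2 * h : ℕ) : ℝ)) atTop atTop :=
    tendsto_natCast_atTop_atTop.comp (tendsto_id.const_mul_atTop' (by norm_num : (0 : ℕ) < 2))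
  have hi : Tendsto (fun h : ℕ => (((2 * h : ℕ) : ℝ))⁻¹) atTop (𝓝 0) := hl.inv_tendsto_atTop
  have hδlim : Tendsto (fun h : ℕ => (A / ((2 * h : ℕ) : ℝ) + T) / 2) atTop (𝓝 (T / 2)) := by
    have h1 := ((hi.const_mul A).add_const T).div_const 2
    rw [mul_zero, zero_add] at h1
    exact h1.congr fun h => by rw [← div_eq_mul_inv]
  have herr : Tendsto (fun h : ℕ => blockErr X P C ((A / ((2 * h : ℕ) : ℝ) + T) / 2) h) atTop
      (𝓝 (T / 2 * C)) := by
    have h1 := ((((hi.pow 3).const_mul (X + 3)).add ((hi.pow 2).const_mul 3)).add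
      (hi.const_mul (7 * P))).add (hδlim.mul_const C)
    simp only [ne_eq, OfNat.ofNat_ne_zero, not_false_eq_true, zero_pow, mul_zero, add_zero, zero_add] at h1
    refine h1.congr' ?_
    filter_upwards [eventually_gt_atTop 0] with h hh
    simp only [blockErr]
    push_cast
    field_simp
  have hqerr : Tendsto (fun h : ℕ => 3 / 4 / 32 / (k * ((2 * h : ℕ) : ℝ)) ^ 3) atTop (𝓝 0) :=
    ((tendsto_pow_atTop three_ne_zero).comp (hl.const_mul_atTop hk)).const_div_atTop _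
  obtain ⟨h, ⟨⟨h1, h2⟩, h3⟩, h4⟩ := ((((tendsto_order.mp hδlim).2 (1 / 2) hT1).and
      ((tendsto_order.mp herr).2 tgt hT2)).and
      ((tendsto_order.mp hqerr).2 g hg)).and (eventually_ge_atTop 2) |>.exists
  exact ⟨h, h4, h1, h2, h3⟩

lemma final_gap {k h Nb N' q g : ℝ} (hk : 0 < k) (hh : 0 < h) (hg : g = Nb / (4096 * k ^ 3))
    (hN : 3 * Nb ≤ 4 * N') (hq : 3 / 4 * ((h ^ 3 * N' - 1) / (k * (2 * h)) ^ 3) ≤ q)
    (herr : 3 / 4 / 32 / (k * (2 * h)) ^ 3 < g / 8) :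
    Nb / (512 * k ^ 3) + g - g / 8 ≤ q / 32 := by
  have e : 3 / 4 * ((h ^ 3 * N' - 1) / (k * (2 * h)) ^ 3) / 32
      = 3 * N' / (1024 * k ^ 3) - 3 / 4 / 32 / (k * (2 * h)) ^ 3 := by
    field_simp; ring
  have e2 : Nb / (512 * k ^ 3) + g = (9 * Nb / 4) / (1024 * k ^ 3) := by
    rw [hg]; field_simp; ring
  have e3 : (9 * Nb / 4) / (1024 * k ^ 3) ≤ 3 * N' / (1024 * k ^ 3) :=
    div_le_div_of_nonneg_right (by linarith) (by positivity)
  have h5 := div_le_div_of_nonneg_right hq (show (0 : ℝ) ≤ 32 by norm_num)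
  rw [e] at h5
  linarith

lemma final_contra {s κ P0 Pn E q K ε g M r nb : ℝ} (hs : 0 < s) (hg : 0 < g)
    (hup : Pn ≤ E + P0 + s * κ * r) (hlow : P0 + s * q / 32 - ε * nb ≤ Pn) (hnb : nb ≤ s * K)
    (hε : 0 ≤ ε) (hεK : ε * K ≤ g / 8) (hE : E < s * g / 4) (hr : κ * r ≤ M + g / 8)
    (hq : M + g - g / 8 ≤ q / 32) : False := by
  have h1 := mul_le_mul_of_nonneg_left hnb hε
  have h2 := mul_le_mul_of_nonneg_left hεK hs.le
  have h3 := mul_le_mul_of_nonneg_left hr hs.le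
  have h4 := mul_le_mul_of_nonneg_left hq hs.le
  have h5 : 0 < s * g := mul_pos hs hg
  linarith

lemma hasSum_of_nonneg {a : Par} (ha : ∀ j, 0 ≤ a j) : HasSum (fun j => a j) ‖a‖ := by
  have h := (par_summable a).hasSum
  rw [← par_norm] at h
  exact h.congr_fun fun j => (abs_of_nonneg (ha j)).symm

lemma qlin_add_smul (a b : Par) (s : ℝ) : qlin ⇑(a + s • b) - qlin a = s * qlin b := by
  simp only [qlin]
  rw [← (qlin_summable _).tsum_sub (qlin_summable a), ← tsum_mul_left]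
  refine tsum_congr fun j => ?_
  simp only [lp.coeFn_add, lp.coeFn_smul, Pi.add_apply, Pi.smul_apply, smul_eq_mul]
  ring

lemma blockErr_eq (X P C δ P0 r : ℝ) (h : ℕ) (hh : 0 < h) :
    (X + 3 + 3 * ((2 * h : ℕ) : ℝ) + (((2 * h : ℕ) : ℝ) ^ 3 * (P0 + δ * C + r)
      + 7 * ((2 * h : ℕ) : ℝ) ^ 2 * P)) / ((2 * h : ℕ) : ℝ) ^ 3 = blockErr X P C δ h + P0 + r := by
  simp only [blockErr]
  push_cast
  field_simp
  ring

/-- Some parameter gives a pressure without derivative in the chemical potential. -/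
theorem exists_corner : ∃ (t : ℝ) (a : Par), (∀ j, 0 ≤ a j) ∧
    ¬ DifferentiableAt ℝ (fun u => Pr u a) t := by
  obtain ⟨k, hk, hkN⟩ := exists_scale
  obtain ⟨Nb, hNb⟩ : ∃ Nb, Nb = ((ball ((k : ℝ) + 3)).card : ℝ) := ⟨_, rfl⟩
  have hNb1 : 1 ≤ Nb := by
    have : (0 : Lat) ∈ ball ((k : ℝ) + 3) := by
      rw [mem_ball]
      have : toPt 0 = 0 := by ext i; simp
      rw [this, norm_zero]; positivity
    rw [hNb]
    exact Nat.one_le_cast.mpr (Finset.card_pos.mpr ⟨_, this⟩)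
  have hk0 : (0 : ℝ) < k := Nat.cast_pos.mpr (by omega)
  obtain ⟨κ, hκ⟩ : ∃ κ, κ = Nb / (2 * (k : ℝ) ^ 3) := ⟨_, rfl⟩
  obtain ⟨g, hg⟩ : ∃ g, g = Nb / (4096 * (k : ℝ) ^ 3) := ⟨_, rfl⟩
  have hκ0 : 0 < κ := by rw [hκ]; exact div_pos (by linarith) (mul_pos two_pos (pow_pos hk0 3))
  have hg0 : 0 < g := by rw [hg]; exact div_pos (by linarith) (mul_pos (by norm_num) (pow_pos hk0 3))
  obtain ⟨ε, hε, hε1, hεK, hεκ⟩ : ∃ ε : ℝ, 0 < ε ∧ ε ≤ 1 / 100 ∧ ε * (7 * 729) ≤ g / 8 ∧ ε * κ ≤ g / 8 :=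
    ⟨min (1 / 100) (min (g / (8 * (7 * 729))) (g / (8 * κ))), by positivity, min_le_left _ _,
      by have := le_trans (min_le_right (1 / 100 : ℝ) _) (min_le_left (g / (8 * (7 * 729))) (g / (8 * κ)))
         rw [le_div_iff₀ (by norm_num)] at this
         linarith,
      by have := le_trans (min_le_right (1 / 100 : ℝ) _) (min_le_right (g / (8 * (7 * 729))) (g / (8 * κ)))
         rw [le_div_iff₀ (by positivity)] at this
         linarith⟩
  obtain ⟨⟨⟨t, a⟩, ha⟩, hmin⟩ := exists_almost_min continuous_gap gap_lower hε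
  refine ⟨t, a, ha, fun hdiff => ?_⟩
  obtain ⟨ρ, hρ⟩ : ∃ ρ, HasDerivAt (fun u => Pr u a) ρ t := ⟨_, hdiff.hasDerivAt⟩
  obtain ⟨u, hu, hplus, hminus⟩ := exists_small_step hε hρ
  have hz : ∀ j, 0 ≤ (a + (0 : Par)) j := by rw [add_zero]; exact ha
  obtain ⟨hρlo, hρhi⟩ : 1 / 16 - 2 * ε ≤ ρ ∧ ρ ≤ 1 / 16 + 2 * ε := by
    have hm1 := gap_ineq hε.le hmin (t + u) 0 hz
    have hm2 := gap_ineq hε.le hmin (t - u) 0 hz
    simp only [add_zero, sub_self, zero_div, norm_zero] at hm1 hm2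
    rw [add_sub_cancel_left, abs_of_pos hu] at hm1
    rw [sub_sub_cancel_left, abs_neg, abs_of_pos hu] at hm2
    exact slope_bounds hu hplus hminus (by linarith) (by linarith)
  have hsq := sq_bound hε.le hε1 hρlo hρhi
  obtain ⟨B, -, hB⟩ := gc_bound ‖a‖ 2 (norm_nonneg _) zero_le_two
  obtain ⟨C, hC⟩ : ∃ C, C = exp (t + u + B) := ⟨_, rfl⟩
  have hC0 : 0 < C := hC ▸ exp_pos _
  obtain ⟨P, hP0, hP1, hP2⟩ : ∃ P, Pr t a ≤ P ∧ Pr (t + u) a ≤ P ∧ Pr (t - u) a ≤ P :=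
    ⟨max (Pr t a) (max (Pr (t + u) a) (Pr (t - u) a)), le_max_left _ _,
      le_trans (le_max_left _ _) (le_max_right _ _), le_trans (le_max_right _ _) (le_max_right _ _)⟩
  obtain ⟨s, hs, hsk1, hskX⟩ : ∃ s : ℝ, 0 < s ∧ s * κ ≤ 1 / 2 ∧ s * κ * (C + 1) ^ 2 ≤ u * ε / 2 :=
    ⟨min (1 / (2 * κ)) (u * ε / (2 * κ * (C + 1) ^ 2)), by positivity,
      by have := min_le_left (1 / (2 * κ)) (u * ε / (2 * κ * (C + 1) ^ 2))
         rw [le_div_iff₀ (by positivity)] at this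
         linarith,
      by have := min_le_right (1 / (2 * κ)) (u * ε / (2 * κ * (C + 1) ^ 2))
         rw [le_div_iff₀ (by positivity)] at this
         linarith⟩
  have hta : Tendsto (fun J => ‖a‖ - ∑ j ∈ Finset.range J, a j) atTop (𝓝 0) := by
    simpa using (tendsto_const_nhds (x := ‖a‖)).sub (hasSum_of_nonneg ha).tendsto_sum_nat
  obtain ⟨J, hJ⟩ := ((tendsto_order.mp hta).2 (min (1 / 2) (s * g / (4 * C))) (by positivity)).exists
  have hT1 : (‖a‖ - ∑ j ∈ Finset.range J, a j) / 2 < 1 / 2 := by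
    have := lt_of_lt_of_le hJ (min_le_left _ _); linarith
  have hT2 : (‖a‖ - ∑ j ∈ Finset.range J, a j) / 2 * C < s * g / 4 := by
    have h2 := lt_of_lt_of_le hJ (min_le_right _ _)
    rw [lt_div_iff₀ (by positivity)] at h2
    have : 0 < s * g := mul_pos hs hg0
    linarith
  obtain ⟨h, h4, h1, h2, h3⟩ := choose_side (A := ‖a‖ * (6 * ((J : ℝ) + 4)))
    (X := C + 1) (P := P) hk0 hT1 hT2 (show 0 < g / 8 by linarith)
  obtain ⟨δ, hδ⟩ : ∃ δ, δ = (‖a‖ * (6 * ((J : ℝ) + 4)) / ((2 * h : ℕ) : ℝ)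
      + (‖a‖ - ∑ j ∈ Finset.range J, a j)) / 2 := ⟨_, rfl⟩
  rw [← hδ] at h1 h2
  have hδ0 : 0 ≤ δ := by
    have h5 := sum_le_hasSum (Finset.range J) (fun j _ => ha j) (hasSum_of_nonneg ha)
    have h6 : 0 ≤ ‖a‖ * (6 * ((J : ℝ) + 4)) / ((2 * h : ℕ) : ℝ) := by positivity
    rw [hδ]; linarith
  have hblock := block_value a t ρ ε u (C + 1) C P (2 * h) (by omega) δ (s * κ) hδ0 h1.le
    (mul_nonneg hs.le hκ0.le) hsk1 hu.le le_rfl hC0.le hskX hplus hminus hP0 hP1 hP2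
    (fun t' ht' => (hB a le_rfl t' ((2 * h : ℕ) : ℝ) (Nat.cast_nonneg _)).trans
      (by rw [hC]; gcongr))
  rw [hδ, hκ, hNb] at hblock
  have hupper := Pr_kac_le a ha t s hs.le k (2 * h) J (by omega) _ hblock
  rw [← hNb, ← hκ, ← hδ, blockErr_eq _ _ _ _ _ _ h (by omega)] at hupper
  have hab : ∀ j, 0 ≤ (a + s • kac (k * (2 * h))) j := fun j => by
    simp only [lp.coeFn_add, lp.coeFn_smul, Pi.add_apply, Pi.smul_apply, smul_eq_mul]
    exact add_nonneg (ha j) (mul_nonneg hs.le (kac_nonneg _ _))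
  have hlower := gap_ineq hε.le hmin t _ hab
  rw [sub_self, zero_div, add_zero, abs_zero, zero_add, qlin_add_smul] at hlower
  have hnb : ‖s • kac (k * (2 * h))‖ ≤ s * (7 * 729) := by
    rw [norm_smul, Real.norm_eq_abs, abs_of_pos hs]
    exact mul_le_mul_of_nonneg_left (norm_kac_uniform _ (Nat.mul_pos (by omega) (by omega))) hs.le
  have hq := qlin_kac_ge k h hk (by omega)
  have hh0 : (0 : ℝ) < h := Nat.cast_pos.mpr (by omega)
  have hq2 := final_gap (q := qlin (kac (k * (2 * h)))) hk0 hh0 hg (by rw [hNb]; exact hkN)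
    (by convert hq using 4 <;> push_cast <;> ring) (by convert h3 using 3; push_cast; ring)
  refine final_contra (M := Nb / (512 * (k : ℝ) ^ 3)) hs hg0 hupper hlower hnb hε.le hεK h2 ?_ hq2
  have h5 := mul_le_mul_of_nonneg_left hsq hκ0.le
  have h6 : κ * (1 / 256) = Nb / (512 * (k : ℝ) ^ 3) := by rw [hκ]; ring
  linarith

end

end Vale.Agent.P171
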