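import Vale.Agent.P171.Lattice

/-!
The family of potentials and the configuration-wise bounds.
-/

namespace Vale.Agent.P171

open MeasureTheory Real
open scoped Classical

noncomputable section

/-- Lattice points in the shell of radius `j`. -/
def shell (j : ℕ) : Finset Lat := (ball (j + 3)).filter fun v => (j : ℝ) - 3 ≤ ‖toPt v‖

/-- The size of a shell. -/
def cnt (j : ℕ) : ℝ := (shell j).card

/-- A tent of width one around `j`. -/
def tent (j : ℕ) (r : ℝ) : ℝ := max (1 - |r - j|) 0

/-- The attraction with parameters `a`. -/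
def psi (a : ℕ → ℝ) (r : ℝ) : ℝ := ∑' j : ℕ, a j * tent j r / cnt j

/-- The repulsive core. -/
def core (r : ℝ) : ℝ := max ((r ^ 6)⁻¹ - 1) 0

/-- The radial potential. -/
def phi (a : ℕ → ℝ) (r : ℝ) : ℝ := core r - psi a r

/-- The kernel of a function of the distance, with no self term. -/
def rad (f : ℝ → ℝ) (p q : Pt) : ℝ := if p = q then 0 else f (dist p q)

/-- The pair kernel of the potential, halved for ordered pairs. -/
def KK (a : ℕ → ℝ) (p q : Pt) : ℝ := rad (fun r => -(phi a r) / 2) p q

lemma mem_shell {j : ℕ} {v : Lat} :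
    v ∈ shell j ↔ ‖toPt v‖ ≤ j + 3 ∧ (j : ℝ) - 3 ≤ ‖toPt v‖ := by
  simp [shell, mem_ball]

lemma one_le_cnt (j : ℕ) : 1 ≤ cnt j := by
  have : Pi.single (0 : Fin 3) (j : ℤ) ∈ shell j := by
    have h : toPt (Pi.single (0 : Fin 3) (j : ℤ)) = EuclideanSpace.single (0 : Fin 3) (j : ℝ) := by
      ext i
      by_cases hi : i = 0
      · subst hi; simp
      · simp [hi]
    rw [mem_shell, h, PiLp.norm_single, Real.norm_natCast]
    constructor <;> linarith
  exact Nat.one_le_cast.mpr (Finset.card_pos.mpr ⟨_, this⟩)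

lemma cnt_pos (j : ℕ) : 0 < cnt j := lt_of_lt_of_le one_pos (one_le_cnt j)

lemma tent_nonneg (j : ℕ) (r : ℝ) : 0 ≤ tent j r := le_max_right _ _

lemma tent_le_one (j : ℕ) (r : ℝ) : tent j r ≤ 1 :=
  max_le (by have := abs_nonneg (r - j); linarith) zero_le_one

lemma tent_eq_zero {j : ℕ} {r : ℝ} (h : 1 ≤ |r - j|) : tent j r = 0 :=
  max_eq_right (by linarith)

lemma tent_pos_iff {j : ℕ} {r : ℝ} (h : tent j r ≠ 0) : |r - j| < 1 := by
  by_contra hh
  exact h (tent_eq_zero (not_lt.mp hh))

lemma continuous_tent (j : ℕ) : Continuous (tent j) := by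
  unfold tent; fun_prop

lemma abs_tent_sub (j : ℕ) (r s : ℝ) : |tent j r - tent j s| ≤ |r - s| := by
  refine (abs_max_sub_max_le_abs _ _ _).trans ?_
  rw [sub_sub_sub_cancel_left, abs_sub_comm r s]
  exact (abs_abs_sub_abs_le_abs_sub (s - j) (r - j)).trans (le_of_eq (by congr 1; ring))

lemma psi_eq_sum (a : ℕ → ℝ) (N : ℕ) {r : ℝ} (hr : r + 1 ≤ N) :
    psi a r = ∑ j ∈ Finset.range N, a j * tent j r / cnt j := by
  refine tsum_eq_sum fun j hj => ?_
  have hjN : (N : ℝ) ≤ j := Nat.cast_le.mpr (not_lt.mp fun h => hj (Finset.mem_range.mpr h))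
  rw [tent_eq_zero, mul_zero, zero_div]
  rw [abs_of_nonpos (by linarith)]; linarith

lemma continuous_psi (a : ℕ → ℝ) : Continuous (psi a) := by
  refine continuous_iff_continuousAt.mpr fun r => ?_
  have h : psi a =ᶠ[nhds r] fun s => ∑ j ∈ Finset.range (⌈r⌉₊ + 2), a j * tent j s / cnt j := by
    filter_upwards [eventually_lt_nhds (lt_add_one r)] with s hs
    refine psi_eq_sum a _ ?_
    have := Nat.le_ceil r
    push_cast; linarith
  refine ContinuousAt.congr ?_ h.symm
  exact (continuous_finsetSum _ fun j _ =>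
    ((continuous_tent j).const_mul _).div_const _).continuousAt

lemma psi_add (a b : ℕ → ℝ) (r : ℝ) : psi (fun j => a j + b j) r = psi a r + psi b r := by
  have hN : r + 1 ≤ ((⌈r⌉₊ + 2 : ℕ) : ℝ) := by have := Nat.le_ceil r; push_cast; linarith
  simp only [psi_eq_sum _ _ hN, ← Finset.sum_add_distrib]
  exact Finset.sum_congr rfl fun j _ => by ring

lemma psi_smul (s : ℝ) (a : ℕ → ℝ) (r : ℝ) : psi (fun j => s * a j) r = s * psi a r := by
  simp only [psi, ← tsum_mul_left]
  exact tsum_congr fun j => by ring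

lemma psi_sub (a b : ℕ → ℝ) (r : ℝ) : psi (fun j => a j - b j) r = psi a r - psi b r := by
  have hN : r + 1 ≤ ((⌈r⌉₊ + 2 : ℕ) : ℝ) := by have := Nat.le_ceil r; push_cast; linarith
  simp only [psi_eq_sum _ _ hN, ← Finset.sum_sub_distrib]
  exact Finset.sum_congr rfl fun j _ => by ring

lemma psi_nonneg {a : ℕ → ℝ} (ha : ∀ j, 0 ≤ a j) (r : ℝ) : 0 ≤ psi a r :=
  tsum_nonneg fun j => div_nonneg (mul_nonneg (ha j) (tent_nonneg j r)) (cnt_pos j).le

lemma core_nonneg (r : ℝ) : 0 ≤ core r := le_max_right _ _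

lemma core_eq_zero {r : ℝ} (hr : 1 ≤ r) : core r = 0 :=
  max_eq_right (by have := inv_le_one_of_one_le₀ (one_le_pow₀ (n := 6) hr); linarith)

lemma continuousOn_phi (a : ℕ → ℝ) : ContinuousOn (phi a) (Set.Ioi 0) := by
  refine ContinuousOn.sub ?_ (continuous_psi a).continuousOn
  have hmax : Continuous fun y : ℝ => max (y - 1) 0 := by fun_prop
  refine hmax.comp_continuousOn ?_
  exact (continuousOn_pow 6).inv₀ fun r hr => pow_ne_zero 6 (ne_of_gt hr)

lemma phi_nonpos {a : ℕ → ℝ} (ha : ∀ j, 0 ≤ a j) {r : ℝ} (hr : 1 ≤ r) : phi a r ≤ 0 := by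
  rw [phi, core_eq_zero hr]; have := psi_nonneg ha r; linarith

lemma measurable_phi (a : ℕ → ℝ) : Measurable (phi a) := by
  refine Measurable.sub ?_ (continuous_psi a).measurable
  unfold core; fun_prop

lemma measurable_rad {f : ℝ → ℝ} (hf : Measurable f) : Measurable (Function.uncurry (rad f)) := by
  refine Measurable.ite ?_ measurable_const (hf.comp measurable_dist)
  exact measurableSet_eq_fun measurable_fst measurable_snd

lemma measurable_KK (a : ℕ → ℝ) : Measurable (Function.uncurry (KK a)) :=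
  measurable_rad ((measurable_phi a).neg.div_const 2)

lemma measurable_cell : Measurable cell :=
  measurable_pi_lambda _ fun i =>
    Int.measurable_floor.comp (by fun_prop : Measurable fun p : Pt => p i)

lemma measurable_blk (l u : ℕ) : Measurable (blk l u) :=
  (measurable_of_countable (fun z : Lat => fun i => (z i + u) / (l : ℤ))).comp measurable_cell

lemma measurable_same {f : Pt → Lat} (hf : Measurable f) :
    Measurable (Function.uncurry (same f)) := by
  refine Measurable.ite ?_ measurable_const measurable_const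
  exact measurableSet_eq_fun (hf.comp measurable_fst) (hf.comp measurable_snd)

variable {ι : Type} [Fintype ι]

lemma pairSum_add (K K' : Pt → Pt → ℝ) (x : ι → Pt) :
    pairSum (fun p q => K p q + K' p q) x = pairSum K x + pairSum K' x := by
  simp [pairSum, Finset.sum_add_distrib]

lemma pairSum_mul (c : ℝ) (K : Pt → Pt → ℝ) (x : ι → Pt) :
    pairSum (fun p q => c * K p q) x = c * pairSum K x := by
  simp [pairSum, Finset.mul_sum]

lemma pairSum_mono {K K' : Pt → Pt → ℝ} (x : ι → Pt)
    (h : ∀ i k, K (x i) (x k) ≤ K' (x i) (x k)) : pairSum K x ≤ pairSum K' x :=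
  Finset.sum_le_sum fun i _ => Finset.sum_le_sum fun k _ => h i k

lemma tent_le_shift (j : ℕ) (p q : Pt) :
    tent j (dist p q) ≤ ∑ v ∈ shell j, if cell q = cell p + v then (1 : ℝ) else 0 := by
  by_cases h : tent j (dist p q) = 0
  · rw [h]; exact Finset.sum_nonneg fun v _ => by positivity
  · have hd := abs_lt.mp (tent_pos_iff h)
    have hn := abs_le.mp (norm_cell_sub p q)
    have hv : cell q - cell p ∈ shell j := by rw [mem_shell]; constructor <;> linarith
    refine (tent_le_one j _).trans ?_
    refine le_trans ?_ (Finset.single_le_sum (f := fun v => if cell q = cell p + v then (1 : ℝ) else 0)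
      (fun v _ => by positivity) hv)
    simp

lemma weighted_tent_le (j : ℕ) (b : ι → ℝ) (hb : ∀ i, 0 ≤ b i) (x : ι → Pt) :
    ∑ i, ∑ k, tent j (dist (x i) (x k)) * (b i * b k) / cnt j
      ≤ pairQ b (fun i => cell (x i)) := by
  have hc := cnt_pos j
  simp only [← Finset.sum_div]
  rw [div_le_iff₀ hc, mul_comm _ (cnt j)]
  refine le_trans (Finset.sum_le_sum fun i _ => Finset.sum_le_sum fun k _ => ?_)
    (pair_shifts_le b (fun i => cell (x i)) (shell j))
  refine (mul_le_mul_of_nonneg_right (tent_le_shift j (x i) (x k))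
    (mul_nonneg (hb i) (hb k))).trans (le_of_eq ?_)
  rw [Finset.sum_mul]
  exact Finset.sum_congr rfl fun v _ => by split_ifs <;> simp

lemma tent_sum_le (j : ℕ) (x : ι → Pt) :
    ∑ i, ∑ k, tent j (dist (x i) (x k)) / cnt j ≤ pairSum (same cell) x := by
  rw [pairSum_same]
  simpa using weighted_tent_le j (fun _ => (1 : ℝ)) (fun _ => zero_le_one) x

lemma exists_range (x : ι → Pt) : ∃ N : ℕ, ∀ i k, dist (x i) (x k) + 1 ≤ N := by
  refine ⟨⌈∑ i, ∑ k, dist (x i) (x k)⌉₊ + 1, fun i k => ?_⟩
  have h : dist (x i) (x k) ≤ ∑ i, ∑ k, dist (x i) (x k) :=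
    le_trans (Finset.single_le_sum (f := fun k => dist (x i) (x k)) (fun k _ => dist_nonneg)
      (Finset.mem_univ k))
      (Finset.single_le_sum (f := fun i => ∑ k, dist (x i) (x k))
        (fun i _ => Finset.sum_nonneg fun k _ => dist_nonneg) (Finset.mem_univ i))
  have := Nat.le_ceil (∑ i, ∑ k, dist (x i) (x k))
  push_cast; linarith

/-- The pair sum of the attraction is at most the parameter norm times the cell count. -/
lemma psi_pair_le {a : ℕ → ℝ} (ha : Summable fun j => |a j|) (x : ι → Pt) :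
    pairSum (rad fun r => |psi a r|) x ≤ (∑' j, |a j|) * pairSum (same cell) x := by
  obtain ⟨N, hN⟩ := exists_range x
  calc pairSum (rad fun r => |psi a r|) x
      ≤ ∑ i, ∑ k, ∑ j ∈ Finset.range N, |a j| * (tent j (dist (x i) (x k)) / cnt j) := by
        refine Finset.sum_le_sum fun i _ => Finset.sum_le_sum fun k _ => ?_
        have hnn : ∀ j ∈ Finset.range N, 0 ≤ |a j| * (tent j (dist (x i) (x k)) / cnt j) :=
          fun j _ => mul_nonneg (abs_nonneg _) (div_nonneg (tent_nonneg _ _) (cnt_pos j).le)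
        unfold rad
        split_ifs
        · exact Finset.sum_nonneg hnn
        · beta_reduce
          rw [psi_eq_sum a N (hN i k)]
          refine (Finset.abs_sum_le_sum_abs _ _).trans (le_of_eq (Finset.sum_congr rfl fun j _ => ?_))
          rw [abs_div, abs_mul, abs_of_nonneg (tent_nonneg _ _), abs_of_pos (cnt_pos j), mul_div_assoc]
    _ = ∑ j ∈ Finset.range N, |a j| * ∑ i, ∑ k, tent j (dist (x i) (x k)) / cnt j := by
        simp only [Finset.mul_sum]
        exact (Finset.sum_congr rfl fun i _ => Finset.sum_comm).trans Finset.sum_comm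
    _ ≤ ∑ j ∈ Finset.range N, |a j| * pairSum (same cell) x :=
        Finset.sum_le_sum fun j _ => mul_le_mul_of_nonneg_left (tent_sum_le j x) (abs_nonneg _)
    _ ≤ _ := by
        rw [← Finset.sum_mul]
        exact mul_le_mul_of_nonneg_right (ha.sum_le_tsum _ fun j _ => abs_nonneg _)
          (pairSum_same_nonneg _ _)

/-- Superstability of the core. -/
lemma core_superstable (A : ℝ) (hA : 0 ≤ A) : ∃ B : ℝ, 0 ≤ B ∧
    ∀ (n : ℕ) (x : Fin n → Pt), Function.Injective x →
      A * pairSum (same cell) x ≤ B * n + pairSum (rad core) x := by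
  set m : ℕ := ⌈64 * (A + 2)⌉₊ + 1 with hm
  set M : ℝ := ((m : ℝ) / 2) ^ 6 - 1 with hM
  have hm0 : 0 < m := Nat.succ_pos _
  have hm1 : 64 * (A + 2) ≤ m := by
    have := Nat.le_ceil (64 * (A + 2)); rw [hm]; push_cast; linarith
  have hm2 : (m : ℝ) ≤ (m : ℝ) ^ 3 := by
    have h : (1 : ℝ) ≤ m := Nat.one_le_cast.mpr hm0
    nlinarith [mul_le_mul h h zero_le_one (by linarith)]
  have hAM : A * (m : ℝ) ^ 3 ≤ M := by
    have h3 : 64 * (A + 2) ≤ (m : ℝ) ^ 3 := hm1.trans hm2
    have h4 : M = ((m : ℝ) ^ 3) ^ 2 / 64 - 1 := by rw [hM]; ring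
    rw [h4]
    nlinarith
  have hM0 : 0 ≤ M := le_trans (by positivity) hAM
  refine ⟨M, hM0, fun n x hx => ?_⟩
  have h1 := mul_le_mul_of_nonneg_left (same_cell_le_subcell m hm0 x) hA
  have h2 : M * pairSum (same (subcell m)) x ≤ M * n + pairSum (rad core) x := by
    have hd : M * pairSum (same (subcell m)) x
        ≤ ∑ i, ∑ k, ((if k = i then M else 0) + rad core (x i) (x k)) := by
      rw [pairSum, Finset.mul_sum]
      refine Finset.sum_le_sum fun i _ => ?_
      rw [Finset.mul_sum]
      refine Finset.sum_le_sum fun k _ => ?_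
      rcases eq_or_ne k i with rfl | hki
      · simp [same, rad]
      · have hne : x i ≠ x k := fun h => hki (hx h).symm
        simp only [same, if_neg hki, rad, if_neg hne, zero_add]
        split_ifs with hs
        · rw [mul_one]
          refine le_trans ?_ (le_max_left _ _)
          have hd : dist (x i) (x k) ≤ 2 * (1 / (m : ℝ)) := by
            rw [dist_eq_norm]
            refine norm_le_two_mul (by positivity) fun j => ?_
            have := congrFun hs j
            simp only [subcell] at this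
            have := Int.abs_sub_lt_one_of_floor_eq_floor this
            rw [← mul_sub, abs_mul, Nat.abs_cast] at this
            rw [PiLp.sub_apply, le_div_iff₀ (Nat.cast_pos.mpr hm0), mul_comm]
            exact this.le
          have hd0 : 0 < dist (x i) (x k) := dist_pos.mpr hne
          have : ((m : ℝ) / 2) ^ 6 ≤ (dist (x i) (x k) ^ 6)⁻¹ := by
            rw [← inv_pow]
            refine pow_le_pow_left₀ (by positivity) ?_ 6
            rw [le_inv_comm₀ (by positivity) hd0, inv_div]
            calc dist (x i) (x k) ≤ 2 * (1 / (m : ℝ)) := hd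
              _ = 2 / m := by ring
          rw [hM]; linarith
        · rw [mul_zero]; exact core_nonneg _
    refine hd.trans (le_of_eq ?_)
    simp [Finset.sum_add_distrib, pairSum, mul_comm]
  have hY := pairSum_same_nonneg (subcell m) x
  nlinarith [mul_le_mul_of_nonneg_right hAM hY]

lemma pairSum_KK (a : ℕ → ℝ) (x : ι → Pt) :
    pairSum (KK a) x = (pairSum (rad (psi a)) x - pairSum (rad core) x) / 2 := by
  simp only [pairSum, ← Finset.sum_sub_distrib, Finset.sum_div]
  refine Finset.sum_congr rfl fun i _ => Finset.sum_congr rfl fun k _ => ?_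
  simp only [KK, rad, phi]
  split_ifs <;> ring

/-- Uniform upper bound on the pair sum. -/
lemma KK_upper (M c : ℝ) (hM : 0 ≤ M) (hc : 0 ≤ c) : ∃ B : ℝ, 0 ≤ B ∧
    ∀ a : ℕ → ℝ, (Summable fun j => |a j|) → (∑' j, |a j|) ≤ M →
      ∀ (n : ℕ) (x : Fin n → Pt), Function.Injective x →
        pairSum (KK a) x + c * pairSum (same cell) x ≤ B * n := by
  obtain ⟨B, hB0, hB⟩ := core_superstable (M + 2 * c) (by linarith)
  refine ⟨B, hB0, fun a ha haM n x hx => ?_⟩
  have h1 : pairSum (rad (psi a)) x ≤ pairSum (rad fun r => |psi a r|) x :=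
    pairSum_mono x fun i k => by unfold rad; split_ifs; · exact le_rfl
                                 exact le_abs_self _
  have h2 := psi_pair_le ha x
  have hY := pairSum_same_nonneg cell x
  have h3 := mul_le_mul_of_nonneg_right haM hY
  have h4 := hB n x hx
  rw [pairSum_KK]
  have : (0 : ℝ) ≤ B * n := by positivity
  nlinarith

/-- Comparison of two parameters. -/
lemma KK_compare {a a' : ℕ → ℝ} (h : Summable fun j => |a' j - a j|) (x : ι → Pt) :
    pairSum (KK a') x ≤ pairSum (KK a) x + (∑' j, |a' j - a j|) / 2 * pairSum (same cell) x := by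
  have h2 := psi_pair_le (a := fun j => a' j - a j) h x
  have h1 : pairSum (rad (psi a')) x
      ≤ pairSum (rad (psi a)) x + pairSum (rad fun r => |psi (fun j => a' j - a j) r|) x := by
    rw [← pairSum_add]
    refine pairSum_mono x fun i k => ?_
    unfold rad
    split_ifs
    · simp
    · beta_reduce
      rw [psi_sub]
      linarith [le_abs_self (psi a' (dist (x i) (x k)) - psi a (dist (x i) (x k)))]
  rw [pairSum_KK, pairSum_KK]
  nlinarith

end

end Vale.Agent.P171
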