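import Vale.Agent.P171.Split
import Vale.Agent.P171.Potential

/-!
The pressure, its existence as a limit, and its continuity in the parameters.
-/

namespace Vale.Agent.P171

open MeasureTheory Real Filter
open scoped ENNReal Classical Topology

noncomputable section

/-- The parameter space of attractions. -/
abbrev Par := lp (fun _ : ℕ => ℝ) 1

/-- The half-open box of side `L`. -/
def box (L : ℝ) : Set Pt := {p | ∀ i, p i ∈ Set.Ico (0 : ℝ) L}

/-- The potential kernel with an extra cell term. -/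
def KC (a : ℕ → ℝ) (c : ℝ) (p q : Pt) : ℝ := KK a p q + c * same cell p q

/-- Logarithm of the grand-canonical sum. -/
def lg (A : Set Pt) (t : ℝ) (K : Pt → Pt → ℝ) : ℝ := Real.log (gc A t K).toReal

/-- The pressure. -/
def Pr (t : ℝ) (a : ℕ → ℝ) : ℝ := ⨆ l : ℕ, lg (box l) t (KK a) / ((l : ℝ) + 1) ^ 3

lemma par_summable (a : Par) : Summable fun j => |a j| := by
  have h := lp.memℓp a
  rw [memℓp_gen_iff (by norm_num)] at h
  simpa [Real.norm_eq_abs] using h

lemma par_norm (a : Par) : ‖a‖ = ∑' j, |a j| := by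
  rw [lp.norm_eq_tsum_rpow (by norm_num)]
  simp [Real.norm_eq_abs]

lemma measurableSet_box (L : ℝ) : MeasurableSet (box L) := by
  have : box L = ⋂ i, (fun p : Pt => p i) ⁻¹' Set.Ico (0 : ℝ) L := by ext p; simp [box]
  rw [this]
  exact MeasurableSet.iInter fun i =>
    (by fun_prop : Measurable fun p : Pt => p i) measurableSet_Ico

lemma volume_box (L : ℝ) (hL : 0 ≤ L) : volume (box L) = ENNReal.ofReal (L ^ 3) := by
  have h := PiLp.volume_preserving_ofLp (Fin 3)
  have hbox : box L = (@WithLp.ofLp 2 (Fin 3 → ℝ)) ⁻¹' (Set.univ.pi fun _ => Set.Ico (0 : ℝ) L) := by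
    ext p; simp [box]
  rw [hbox, h.measure_preimage
    (MeasurableSet.univ_pi fun _ => measurableSet_Ico).nullMeasurableSet, volume_pi_pi]
  simp [Real.volume_Ico, ENNReal.ofReal_pow hL]

lemma box_mono {L L' : ℝ} (h : L ≤ L') : box L ⊆ box L' :=
  fun _ hp i => ⟨(hp i).1, lt_of_lt_of_le (hp i).2 h⟩

lemma pairSum_KC {ι : Type} [Fintype ι] (a : ℕ → ℝ) (c : ℝ) (x : ι → Pt) :
    pairSum (KC a c) x = pairSum (KK a) x + c * pairSum (same cell) x := by
  rw [← pairSum_mul, ← pairSum_add]; rfl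

lemma measurable_KC (a : ℕ → ℝ) (c : ℝ) : Measurable (Function.uncurry (KC a c)) :=
  (measurable_KK a).add ((measurable_same measurable_cell).const_mul c)

lemma KC_zero (a : ℕ → ℝ) : KC a 0 = KK a := by
  funext p q; simp [KC]

lemma lg_le {A : Set Pt} {t p : ℝ} {K : Pt → Pt → ℝ} (h : gc A t K ≤ ENNReal.ofReal (exp p)) :
    lg A t K ≤ p := by
  have h1 := one_le_gc A t K
  have hf : gc A t K ≠ ⊤ := ne_top_of_le_ne_top ENNReal.ofReal_ne_top h
  have h2 : 1 ≤ (gc A t K).toReal := by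
    simpa using ENNReal.toReal_mono hf h1
  have h3 : (gc A t K).toReal ≤ exp p := by
    simpa [ENNReal.toReal_ofReal (exp_pos p).le] using ENNReal.toReal_mono ENNReal.ofReal_ne_top h
  exact (Real.log_le_iff_le_exp (by linarith)).mpr h3

lemma lg_nonneg (A : Set Pt) (t : ℝ) (K : Pt → Pt → ℝ) : 0 ≤ lg A t K := by
  by_cases hf : gc A t K = ⊤
  · simp [lg, hf]
  · refine Real.log_nonneg ?_
    simpa using ENNReal.toReal_mono hf (one_le_gc A t K)

lemma gc_eq_exp {A : Set Pt} {t : ℝ} {K : Pt → Pt → ℝ} (hf : gc A t K ≠ ⊤) :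
    gc A t K = ENNReal.ofReal (exp (lg A t K)) := by
  have h2 : 1 ≤ (gc A t K).toReal := by simpa using ENNReal.toReal_mono hf (one_le_gc A t K)
  rw [lg, Real.exp_log (by linarith), ENNReal.ofReal_toReal hf]

/-- Uniform bound on the grand-canonical sums. -/
lemma gc_bound (M c : ℝ) (hM : 0 ≤ M) (hc : 0 ≤ c) : ∃ B : ℝ, 0 ≤ B ∧
    ∀ (a : Par), ‖a‖ ≤ M → ∀ t : ℝ, ∀ L : ℝ, 0 ≤ L →
      gc (box L) t (KC a c) ≤ ENNReal.ofReal (exp (L ^ 3 * exp (t + B))) := by
  obtain ⟨B, hB0, hB⟩ := KK_upper M c hM hc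
  refine ⟨B, hB0, fun a haM t L hL => ?_⟩
  refine le_trans ?_ (gc_zero_le (by positivity) (le_of_eq (volume_box L hL)) (t + B))
  refine gc_mono (measurableSet_box L) fun n x hx _ => ?_
  have h := hB a (par_summable a) (par_norm a ▸ haM) n x hx
  rw [logW_eq_pairSum, logW_eq_pairSum, Fintype.card_fin]
  simp only [pairSum_KC]
  have : pairSum (fun _ _ : Pt => (0 : ℝ)) x = 0 := by simp [pairSum]
  rw [this]; nlinarith

lemma gc_finite (a : Par) (c : ℝ) (hc : 0 ≤ c) (t L : ℝ) : gc (box L) t (KC a c) ≠ ⊤ := by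
  obtain ⟨B, -, hB⟩ := gc_bound ‖a‖ c (norm_nonneg _) hc
  exact ne_top_of_le_ne_top ENNReal.ofReal_ne_top
    ((gc_mono_set (box_mono (le_max_left L 0)) t _).trans (hB a le_rfl t _ (le_max_right L 0)))

lemma gcK_finite (a : Par) (t L : ℝ) : gc (box L) t (KK a) ≠ ⊤ :=
  KC_zero a ▸ gc_finite a 0 le_rfl t L

lemma lg_mono (a : Par) (t : ℝ) {L L' : ℝ} (h : L ≤ L') :
    lg (box L) t (KK a) ≤ lg (box L') t (KK a) :=
  lg_le ((gc_mono_set (box_mono h) t _).trans (gc_eq_exp (gcK_finite a t L')).le)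

lemma Pr_bdd (a : Par) (t : ℝ) :
    BddAbove (Set.range fun l : ℕ => lg (box l) t (KK a) / ((l : ℝ) + 1) ^ 3) := by
  obtain ⟨B, -, hB⟩ := gc_bound ‖a‖ 0 (norm_nonneg _) le_rfl
  refine ⟨exp (t + B), ?_⟩
  rintro y ⟨l, rfl⟩
  have h := lg_le (hB a le_rfl t l (Nat.cast_nonneg l))
  rw [KC_zero] at h
  simp only
  rw [div_le_iff₀ (by positivity), mul_comm]
  refine h.trans (mul_le_mul_of_nonneg_right ?_ (exp_pos _).le)
  exact pow_le_pow_left₀ (Nat.cast_nonneg l) (by linarith) 3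

lemma lg_le_Pr (a : Par) (t : ℝ) (l : ℕ) :
    lg (box l) t (KK a) ≤ ((l : ℝ) + 1) ^ 3 * Pr t a :=
  (div_le_iff₀' (by positivity)).mp (le_ciSup (Pr_bdd a t) l)

lemma Pr_nonneg (a : Par) (t : ℝ) : 0 ≤ Pr t a :=
  le_trans (div_nonneg (lg_nonneg _ _ _) (by positivity)) (le_ciSup (Pr_bdd a t) 0)

lemma KK_translate (a : ℕ → ℝ) (v p q : Pt) : KK a (p + v) (q + v) = KK a p q := by
  simp [KK, rad, dist_add_right]

/-- Supermultiplicativity over boxes with unit gaps. -/
lemma gc_pow_le (a : Par) (ha : ∀ j, 0 ≤ a j) (t : ℝ) (l m : ℕ) {L : ℝ}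
    (hL : ((l : ℝ) + 1) * m ≤ L) :
    gc (box l) t (KK a) ^ (m ^ 3) ≤ gc (box L) t (KK a) := by
  set s : Finset Lat := Fintype.piFinset fun _ : Fin 3 => Finset.Ico (0 : ℤ) m with hs
  set o : Lat → Pt := fun w => toPt fun i => ((l : ℤ) + 1) * w i with ho
  set A : Lat → Set Pt := fun w => (fun p => p + -(o w)) ⁻¹' box l with hA
  have hmem : ∀ w p, p ∈ A w ↔ ∀ i, ((l : ℝ) + 1) * w i ≤ p i ∧ p i < ((l : ℝ) + 1) * w i + l := by
    intro w p
    simp only [hA, ho, Set.mem_preimage, box, Set.mem_ofPred_eq, Set.mem_Ico, PiLp.add_apply,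
      PiLp.neg_apply, toPt_apply, Int.cast_mul, Int.cast_add, Int.cast_natCast, Int.cast_one]
    exact forall_congr' fun i => by constructor <;> rintro ⟨h1, h2⟩ <;> constructor <;> linarith
  have hblk : ∀ w p, p ∈ A w → blk (l + 1) 0 p = w := by
    intro w p hp
    funext i
    have h := (hmem w p).mp hp i
    have h1 : ((l : ℤ) + 1) * w i ≤ ⌊p i⌋ := Int.le_floor.mpr (by push_cast; linarith [h.1])
    have h2 : ⌊p i⌋ < ((l : ℤ) + 1) * w i + l := Int.floor_lt.mpr (by push_cast; linarith [h.2])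
    simp only [blk, Nat.cast_zero, add_zero, Nat.cast_add, Nat.cast_one]
    exact ((Int.ediv_emod_unique (r := ⌊p i⌋ - ((l : ℤ) + 1) * w i) (q := w i) (by omega)).mpr
      ⟨by ring, by omega, by omega⟩).1
  have hAm : ∀ w, MeasurableSet (A w) := fun w =>
    (measurableSet_box _).preimage (measurable_add_const _)
  have hsub : (⋃ w ∈ s, A w) ⊆ box L := by
    intro p hp
    simp only [Set.mem_iUnion] at hp
    obtain ⟨w, hw, hp⟩ := hp
    intro i
    have h := (hmem w p).mp hp i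
    have hwi := Finset.mem_Ico.mp (Fintype.mem_piFinset.mp hw i)
    have h0 : (0 : ℝ) ≤ w i := by exact_mod_cast hwi.1
    have h1 : (w i : ℝ) + 1 ≤ m := by exact_mod_cast hwi.2
    have hl : (0 : ℝ) ≤ l := Nat.cast_nonneg l
    refine ⟨le_trans (by positivity) h.1, ?_⟩
    have := mul_le_mul_of_nonneg_left h1 (by linarith : (0 : ℝ) ≤ (l : ℝ) + 1)
    nlinarith [h.2]
  set Kcut : Pt → Pt → ℝ := fun p q => KK a p q * same (blk (l + 1) 0) p q with hcut
  have hcm : Measurable (Function.uncurry Kcut) :=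
    (measurable_KK a).mul (measurable_same (measurable_blk _ _))
  refine le_trans ?_ (gc_mono_set hsub t _)
  refine le_trans (le_of_eq ?_) (gc_mono (t := t) (K := Kcut) (Finset.measurableSet_biUnion s fun w _ => hAm w)
    fun n x hx hxm => ?_)
  · rw [gc_biUnion s A hAm (fun w _ w' _ hne => Set.disjoint_left.mpr fun p hp hp' =>
        hne ((hblk w p hp).symm.trans (hblk w' p hp'))) t hcm
      (fun w _ w' _ hne p hp q hq => by
        simp [hcut, same, hblk w p hp, hblk w' q hq, hne])]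
    have hone : ∀ w ∈ s, gc (A w) t Kcut = gc (box l) t (KK a) := by
      intro w _
      refine Eq.trans ?_ (gc_translate (A w) (o w) t (KK_translate a _)) |>.trans ?_
      · refine le_antisymm (gc_mono (hAm w) fun n x _ hx => le_of_eq ?_)
          (gc_mono (hAm w) fun n x _ hx => le_of_eq ?_) <;>
        simp [logW, hcut, same, hblk w _ (hx _)]
      · congr 1
        ext p
        simp [hA, add_assoc]
    rw [Finset.prod_congr rfl hone, Finset.prod_const]
    simp [hs, Fintype.card_piFinset]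
  · rw [logW_eq_pairSum, logW_eq_pairSum]
    refine (add_le_add_iff_left _).mpr (pairSum_mono x fun i k => ?_)
    simp only [hcut, same]
    split_ifs with hb
    · rw [mul_one]
    · rw [mul_zero]
      have hi := hxm i
      have hk := hxm k
      simp only [Set.mem_iUnion] at hi hk
      obtain ⟨w, -, hw⟩ := hi
      obtain ⟨w', -, hw'⟩ := hk
      rw [hblk w _ hw, hblk w' _ hw'] at hb
      obtain ⟨c, hc⟩ := Function.ne_iff.mp hb
      have h1 := (hmem w _).mp hw c
      have h2 := (hmem w' _).mp hw' c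
      have hd : 1 ≤ dist (x i) (x k) := by
        rw [dist_eq_norm]
        refine le_trans ?_ (abs_coord_le _ c)
        rw [PiLp.sub_apply]
        have hl : (0 : ℝ) ≤ (l : ℝ) + 1 := by positivity
        rcases lt_or_gt_of_ne hc with h | h
        · have : (w c : ℝ) + 1 ≤ w' c := by exact_mod_cast h
          have := mul_le_mul_of_nonneg_left this hl
          exact le_abs.mpr (Or.inr (by nlinarith))
        · have : (w' c : ℝ) + 1 ≤ w c := by exact_mod_cast h
          have := mul_le_mul_of_nonneg_left this hl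
          exact le_abs.mpr (Or.inl (by nlinarith))
      have := phi_nonpos ha hd
      unfold KK rad
      split_ifs
      · exact le_rfl
      · simp only; linarith

/-- The pressure is the limit along real box sides. -/
lemma tendsto_Pr (a : Par) (ha : ∀ j, 0 ≤ a j) (t : ℝ) :
    Tendsto (fun L : ℝ => lg (box L) t (KK a) / L ^ 3) atTop (𝓝 (Pr t a)) := by
  rw [tendsto_order]
  constructor
  · intro x hx
    obtain ⟨l, hl⟩ := exists_lt_of_lt_ciSup hx
    set g := lg (box l) t (KK a) with hg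
    have hlim : Tendsto (fun L : ℝ => (⌊(1 / ((l : ℝ) + 1)) * L⌋₊ / L) ^ 3 * g) atTop
        (𝓝 ((1 / ((l : ℝ) + 1)) ^ 3 * g)) :=
      ((tendsto_nat_floor_mul_div_atTop (by positivity)).pow 3).mul_const g
    have hlt : x < (1 / ((l : ℝ) + 1)) ^ 3 * g := by
      rw [div_pow, one_pow, one_div_mul_eq_div]; exact hl
    filter_upwards [(tendsto_order.mp hlim).1 x hlt, eventually_gt_atTop 0] with L hL hL0
    refine lt_of_lt_of_le hL ?_
    rw [div_pow, div_mul_eq_mul_div, div_le_div_iff_of_pos_right (by positivity)]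
    set m := ⌊(1 / ((l : ℝ) + 1)) * L⌋₊
    have hm : ((l : ℝ) + 1) * m ≤ L := by
      have := Nat.floor_le (show (0 : ℝ) ≤ (1 / ((l : ℝ) + 1)) * L by positivity)
      have e : ((l : ℝ) + 1) * ((1 / ((l : ℝ) + 1)) * L) = L := by field_simp
      exact (mul_le_mul_of_nonneg_left this (by positivity)).trans e.le
    have h1 := ENNReal.toReal_mono (gcK_finite a t L) (gc_pow_le a ha t l m hm)
    rw [ENNReal.toReal_pow] at h1
    have hpos : 0 < (gc (box l) t (KK a)).toReal := by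
      have := ENNReal.toReal_mono (gcK_finite a t l) (one_le_gc (box l) t (KK a))
      simp only [ENNReal.toReal_one] at this
      linarith
    have h2 := Real.log_le_log (by positivity) h1
    rw [Real.log_pow] at h2
    exact_mod_cast h2
  · intro x hx
    have hlim : Tendsto (fun L : ℝ => (1 + 2 * L⁻¹) ^ 3 * Pr t a) atTop (𝓝 (Pr t a)) := by
      simpa using ((tendsto_inv_atTop_zero.const_mul (2 : ℝ)).const_add 1).pow 3 |>.mul_const (Pr t a)
    filter_upwards [(tendsto_order.mp hlim).2 x hx, eventually_gt_atTop 0] with L hL hL0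
    refine lt_of_le_of_lt ?_ hL
    rw [div_le_iff₀ (by positivity)]
    refine ((lg_mono a t (Nat.le_ceil L)).trans (lg_le_Pr a t ⌈L⌉₊)).trans ?_
    have hc := Nat.ceil_lt_add_one hL0.le
    calc ((⌈L⌉₊ : ℝ) + 1) ^ 3 * Pr t a ≤ (L + 2) ^ 3 * Pr t a :=
          mul_le_mul_of_nonneg_right (pow_le_pow_left₀ (by positivity) (by linarith) 3) (Pr_nonneg a t)
      _ = _ := by field_simp

/-- Lipschitz comparison. -/
lemma Pr_compare (M T : ℝ) (hM : 0 ≤ M) : ∃ C : ℝ, 0 ≤ C ∧ ∀ (t t' : ℝ) (a a' : Par),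
    t ≤ T → ‖a‖ ≤ M → |t' - t| ≤ 1 → ‖a' - a‖ ≤ 1 →
      Pr t' a' ≤ Pr t a + C * max |t' - t| ‖a' - a‖ := by
  obtain ⟨B, -, hB⟩ := gc_bound M 1 hM zero_le_one
  refine ⟨exp (T + 1 + B), (exp_pos _).le, fun t t' a a' ht haM h1 h2 => ?_⟩
  set η := max |t' - t| ‖a' - a‖ with hη
  have hη1 : η ≤ 1 := max_le h1 h2
  have hη0 : 0 ≤ η := le_trans (abs_nonneg _) (le_max_left _ _)
  refine ciSup_le fun l => ?_
  have hq : gc (box l) (t + 1) (KC a 1) ≤ ENNReal.ofReal (exp ((l : ℝ) ^ 3 * exp (T + 1 + B))) := by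
    refine (hB a haM (t + 1) l (Nat.cast_nonneg l)).trans ?_
    gcongr
  have h := lg_le (gc_convex (t := t') (K := KK a') (measurableSet_box (l : ℝ)) (measurable_KK a)
    (measurable_KC a 1) hη0 hη1 (gc_eq_exp (gcK_finite a t l)).le hq fun n x _ _ => by
      rw [logW_eq_pairSum, logW_eq_pairSum, logW_eq_pairSum, Fintype.card_fin]
      simp only [pairSum_KC, one_mul]
      have hc := KK_compare (a := a) (a' := a')
        (by simpa using par_summable (a' - a)) x
      have hn : ∑' j, |a' j - a j| = ‖a' - a‖ := by rw [par_norm]; simp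
      rw [hn] at hc
      have hY := pairSum_same_nonneg cell x
      have e1 : (t' - t) * n ≤ η * n :=
        mul_le_mul_of_nonneg_right ((le_abs_self _).trans (le_max_left _ _)) (Nat.cast_nonneg n)
      have e2 : ‖a' - a‖ / 2 * pairSum (same cell) x ≤ η * pairSum (same cell) x :=
        mul_le_mul_of_nonneg_right
          (by have := le_max_right |t' - t| ‖a' - a‖; have := norm_nonneg (a' - a); linarith) hY
      nlinarith)
  rw [div_le_iff₀ (by positivity)]
  have hl1 : (l : ℝ) ^ 3 ≤ ((l : ℝ) + 1) ^ 3 :=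
    pow_le_pow_left₀ (Nat.cast_nonneg l) (by linarith) 3
  have e3 := mul_le_mul_of_nonneg_left hl1 (mul_nonneg hη0 (exp_pos (T + 1 + B)).le)
  have e4 := lg_le_Pr a t l
  have e5 := mul_nonneg hη0 (lg_nonneg (box (l : ℝ)) t (KK a))
  nlinarith

lemma continuous_Pr : Continuous fun p : ℝ × Par => Pr p.1 p.2 := by
  refine continuous_iff_continuousAt.mpr fun p₀ => ?_
  obtain ⟨C, hC0, hC⟩ := Pr_compare (‖p₀.2‖ + 1) (p₀.1 + 1) (by positivity)
  rw [Metric.continuousAt_iff]
  intro ε hε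
  refine ⟨min 1 (ε / (C + 1)), by positivity, fun {p} hp => ?_⟩
  have h1 : dist p p₀ < 1 := lt_of_lt_of_le hp (min_le_left _ _)
  have h2 : dist p p₀ < ε / (C + 1) := lt_of_lt_of_le hp (min_le_right _ _)
  rw [Prod.dist_eq, Real.dist_eq, dist_eq_norm] at h1 h2
  have ha := le_max_left |p.1 - p₀.1| ‖p.2 - p₀.2‖
  have hb := le_max_right |p.1 - p₀.1| ‖p.2 - p₀.2‖
  have hn : ‖p.2‖ ≤ ‖p₀.2‖ + 1 := by
    have := norm_le_norm_add_norm_sub' p.2 p₀.2; linarith
  have e1 := hC p₀.1 p.1 p₀.2 p.2 (by linarith) (by linarith) (by linarith) (by linarith)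
  have e2 := hC p.1 p₀.1 p.2 p₀.2 (by have := le_abs_self (p.1 - p₀.1); linarith) hn
    (by rw [abs_sub_comm]; linarith) (by rw [norm_sub_rev]; linarith)
  rw [abs_sub_comm p₀.1, norm_sub_rev p₀.2] at e2
  have hnn : 0 ≤ max |p.1 - p₀.1| ‖p.2 - p₀.2‖ := le_trans (abs_nonneg _) ha
  have h3 : C * max |p.1 - p₀.1| ‖p.2 - p₀.2‖ < ε := by
    rw [lt_div_iff₀ (by linarith)] at h2; nlinarith
  rw [Real.dist_eq, abs_lt]
  constructor <;> linarith

end

end Vale.Agent.P171
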