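import Vale.Agent.P171.Basic

/-!
Factorisation of grand-canonical sums over disjoint regions without mutual coupling.
-/

namespace Vale.Agent.P171

open MeasureTheory Real Set
open scoped ENNReal Classical

noncomputable section

variable {ι : Type} [Fintype ι]

lemma wt_split (S : Finset ι) (A B : Set Pt) (t : ℝ) (K : Pt → Pt → ℝ)
    (hK : ∀ p ∈ A, ∀ q ∈ B, K p q = 0 ∧ K q p = 0) (x : ι → Pt)
    (hA : ∀ i ∈ S, x i ∈ A) (hB : ∀ i ∉ S, x i ∈ B) :
    wt t K x = wt t K (fun i : {i // i ∈ S} => x i) * wt t K (fun i : {i // ¬ i ∈ S} => x i) := by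
  unfold wt
  rw [← ENNReal.ofReal_mul (exp_pos _).le, ← exp_add]
  congr 2
  unfold logW
  have e : ∀ f : ι → ℝ, ∑ i, f i
      = (∑ i : {i // i ∈ S}, f i) + ∑ i : {i // ¬ i ∈ S}, f i := fun f => by
    rw [← Finset.sum_add_sum_compl S f, Finset.sum_subtype S (fun _ => Iff.rfl) f,
      Finset.sum_subtype Sᶜ (fun _ => Finset.mem_compl) f]
  rw [e]
  congr 1
  · refine Finset.sum_congr rfl fun i _ => ?_
    rw [e fun k => K (x i) (x k)]
    have : ∑ k : {k // ¬ k ∈ S}, K (x i) (x k) = 0 :=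
      Finset.sum_eq_zero fun k _ => (hK _ (hA i i.2) _ (hB k k.2)).1
    rw [this, add_zero]
  · refine Finset.sum_congr rfl fun i _ => ?_
    rw [e fun k => K (x i) (x k)]
    have : ∑ k : {k // k ∈ S}, K (x i) (x k) = 0 :=
      Finset.sum_eq_zero fun k _ => (hK _ (hA k k.2) _ (hB i i.2)).2
    rw [this, zero_add]

lemma preserving_split (p : ι → Prop) [DecidablePred p] [iA : Fintype {i // p i}]
    [iB : Fintype {i // ¬ p i}] :
    MeasurePreserving (MeasurableEquiv.piEquivPiSubtypeProd (fun _ : ι => Pt) p) volume volume := by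
  obtain rfl : iA = Subtype.fintype p := Subsingleton.elim _ _
  obtain rfl : iB = Subtype.fintype (fun i => ¬ p i) := Subsingleton.elim _ _
  exact volume_preserving_piEquivPiSubtypeProd (fun _ : ι => Pt) p

lemma cInt_union {A B : Set Pt} (hA : MeasurableSet A) (hB : MeasurableSet B) (hd : Disjoint A B)
    (t : ℝ) {K : Pt → Pt → ℝ} (hKm : Measurable (Function.uncurry K))
    (hK : ∀ p ∈ A, ∀ q ∈ B, K p q = 0 ∧ K q p = 0) :
    cInt ι (A ∪ B) t K = ∑ S : Finset ι,
      cInt {i // i ∈ S} A t K * cInt {i // ¬ i ∈ S} B t K := by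
  classical
  set C : Finset ι → Set (ι → Pt) :=
    fun S => Set.univ.pi fun i => if i ∈ S then A else B with hC
  have hCm : ∀ S, MeasurableSet (C S) := fun S =>
    MeasurableSet.univ_pi fun i => by split_ifs <;> assumption
  have hU : (Set.univ.pi fun _ : ι => A ∪ B) = ⋃ S ∈ (Finset.univ : Finset (Finset ι)), C S := by
    ext x
    simp only [mem_univ_pi, mem_iUnion, Finset.mem_univ, exists_true_left, hC]
    refine ⟨fun hx => ⟨Finset.univ.filter fun i => x i ∈ A, fun i => ?_⟩, fun ⟨S, hx⟩ i => ?_⟩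
    · by_cases hi : x i ∈ A
      · simp [hi]
      · simpa [hi] using hx i
    · have := hx i
      split_ifs at this
      · exact Or.inl this
      · exact Or.inr this
  have hdis : ((Finset.univ : Finset (Finset ι)) : Set (Finset ι)).PairwiseDisjoint C := by
    intro S _ T _ hST
    refine Set.disjoint_left.mpr fun x hS hT => hST ?_
    ext i
    have h1 := hS i (mem_univ i)
    have h2 := hT i (mem_univ i)
    dsimp only at h1 h2
    split_ifs at h1 h2 with hiS hiT hiT
    · simp [hiS, hiT]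
    · exact absurd h2 (Set.disjoint_left.mp hd h1)
    · exact absurd h1 (Set.disjoint_left.mp hd h2)
    · simp [hiS, hiT]
  unfold cInt
  rw [hU, lintegral_biUnion_finset hdis (fun S _ => hCm S)]
  refine Finset.sum_congr rfl fun S _ => ?_
  set e := MeasurableEquiv.piEquivPiSubtypeProd (fun _ : ι => Pt) (fun i => i ∈ S) with he
  have hp : MeasurePreserving e volume volume := preserving_split (fun i => i ∈ S)
  have hpre : e ⁻¹' ((Set.univ.pi fun _ : {i // i ∈ S} => A) ×ˢ
      (Set.univ.pi fun _ : {i // ¬ i ∈ S} => B)) = C S := by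
    ext x
    simp only [mem_preimage, mem_prod, mem_univ_pi, hC, he]
    refine ⟨fun hx i => ?_, fun hx => ⟨fun i => ?_, fun i => ?_⟩⟩
    · by_cases hi : i ∈ S
      · simpa [hi, MeasurableEquiv.piEquivPiSubtypeProd, Equiv.piEquivPiSubtypeProd]
          using hx.1 ⟨i, hi⟩
      · simpa [hi, MeasurableEquiv.piEquivPiSubtypeProd, Equiv.piEquivPiSubtypeProd]
          using hx.2 ⟨i, hi⟩
    · simpa [i.2, MeasurableEquiv.piEquivPiSubtypeProd, Equiv.piEquivPiSubtypeProd] using hx i.1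
    · simpa [i.2, MeasurableEquiv.piEquivPiSubtypeProd, Equiv.piEquivPiSubtypeProd] using hx i.1
  calc ∫⁻ x in C S, wt t K x
      = ∫⁻ x in C S, (fun z : ({i // i ∈ S} → Pt) × ({i // ¬ i ∈ S} → Pt) =>
          wt t K z.1 * wt t K z.2) (e x) := by
        refine setLIntegral_congr_fun (hCm S) fun x hx => ?_
        have hx' := fun i => hx i (mem_univ i)
        exact wt_split S A B t K hK x (fun i hi => by simpa [hi] using hx' i)
          (fun i hi => by simpa [hi] using hx' i)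
    _ = ∫⁻ z in (Set.univ.pi fun _ : {i // i ∈ S} => A) ×ˢ
          (Set.univ.pi fun _ : {i // ¬ i ∈ S} => B), wt t K z.1 * wt t K z.2 := by
        rw [← hpre, hp.setLIntegral_comp_preimage_emb e.measurableEmbedding
          (fun z => wt t K z.1 * wt t K z.2)]
    _ = _ := by
        rw [Measure.volume_eq_prod, ← Measure.prod_restrict]
        exact lintegral_prod_mul (measurable_wt t hKm).aemeasurable (measurable_wt t hKm).aemeasurable

lemma cInt_pair {n : ℕ} (S : Finset (Fin n)) {iA : Fintype {i // i ∈ S}}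
    {iB : Fintype {i // ¬ i ∈ S}} (A B : Set Pt) (t : ℝ) (K : Pt → Pt → ℝ) :
    @cInt {i // i ∈ S} iA A t K * @cInt {i // ¬ i ∈ S} iB B t K
      = cInt (Fin S.card) A t K * cInt (Fin (n - S.card)) B t K := by
  have hA : @Fintype.card {i // i ∈ S} iA = S.card :=
    @Fintype.card_of_subtype _ (fun i => i ∈ S) S (fun _ => Iff.rfl) iA
  have hB : @Fintype.card {i // ¬ i ∈ S} iB = n - S.card := by
    refine (@Fintype.card_of_subtype _ (fun i => ¬ i ∈ S) Sᶜ (fun _ => Finset.mem_compl) iB).trans ?_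
    rw [Finset.card_compl, Fintype.card_fin]
  rw [@cInt_eq_fin {i // i ∈ S} iA A t K, @cInt_eq_fin {i // ¬ i ∈ S} iB B t K, hA, hB]

lemma gc_union {A B : Set Pt} (hA : MeasurableSet A) (hB : MeasurableSet B) (hd : Disjoint A B)
    (t : ℝ) {K : Pt → Pt → ℝ} (hKm : Measurable (Function.uncurry K))
    (hK : ∀ p ∈ A, ∀ q ∈ B, K p q = 0 ∧ K q p = 0) :
    gc (A ∪ B) t K = gc A t K * gc B t K := by
  classical
  set a : ℕ → ℝ≥0∞ := fun n => ((n.factorial : ℝ≥0∞))⁻¹ * cInt (Fin n) A t K with ha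
  set b : ℕ → ℝ≥0∞ := fun n => ((n.factorial : ℝ≥0∞))⁻¹ * cInt (Fin n) B t K with hb
  have hterm : ∀ n : ℕ, ((n.factorial : ℝ≥0∞))⁻¹ * cInt (Fin n) (A ∪ B) t K
      = ∑ p ∈ (Finset.HasAntidiagonal.antidiagonal n : Finset (ℕ × ℕ)), a p.1 * b p.2 := by
    intro n
    rw [cInt_union hA hB hd t hKm hK]
    simp only [cInt_pair]
    rw [← Finset.powerset_univ, Finset.sum_powerset_apply_card
      (fun k => cInt (Fin k) A t K * cInt (Fin (n - k)) B t K), Finset.card_univ, Fintype.card_fin,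
      Finset.mul_sum, Finset.Nat.sum_antidiagonal_eq_sum_range_succ (fun i j => a i * b j)]
    refine Finset.sum_congr rfl fun k hk => ?_
    rw [Finset.mem_range, Nat.lt_succ_iff] at hk
    rw [nsmul_eq_mul, ha, hb]
    have hfac : ((n.factorial : ℝ≥0∞))⁻¹ * (n.choose k : ℝ≥0∞)
        = ((k.factorial : ℝ≥0∞))⁻¹ * (((n - k).factorial : ℝ≥0∞))⁻¹ := by
      have hne : ∀ m : ℕ, (m.factorial : ℝ≥0∞) ≠ 0 := fun m => by
        exact_mod_cast m.factorial_ne_zero
      have hr : ((n.factorial : ℝ))⁻¹ * (n.choose k : ℝ)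
          = ((k.factorial : ℝ))⁻¹ * (((n - k).factorial : ℝ))⁻¹ := by
        rw [Nat.cast_choose ℝ hk]
        field_simp
      have conv : ∀ m : ℕ, ((m.factorial : ℝ≥0∞))⁻¹ = ENNReal.ofReal ((m.factorial : ℝ)⁻¹) := by
        intro m
        rw [ENNReal.ofReal_inv_of_pos (by positivity), ENNReal.ofReal_natCast]
      rw [conv, conv, conv, ← ENNReal.ofReal_natCast (n.choose k),
        ← ENNReal.ofReal_mul (by positivity), ← ENNReal.ofReal_mul (by positivity), hr]
    rw [← mul_assoc, hfac]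
    ring
  have hL : gc (A ∪ B) t K = ∑' n, ∑ p ∈ (Finset.HasAntidiagonal.antidiagonal n : Finset (ℕ × ℕ)), a p.1 * b p.2 :=
    tsum_congr hterm
  rw [hL]
  calc ∑' n, ∑ p ∈ (Finset.HasAntidiagonal.antidiagonal n : Finset (ℕ × ℕ)), a p.1 * b p.2
      = ∑' c : (n : ℕ) × {p // p ∈ (Finset.HasAntidiagonal.antidiagonal n : Finset (ℕ × ℕ))}, a c.2.1.1 * b c.2.1.2 := by
        rw [ENNReal.tsum_sigma (fun n (p : {p // p ∈ (Finset.HasAntidiagonal.antidiagonal n : Finset (ℕ × ℕ))}) => a p.1.1 * b p.1.2)]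
        exact tsum_congr fun n => (Finset.tsum_subtype ((Finset.HasAntidiagonal.antidiagonal n : Finset (ℕ × ℕ)))
          (fun p : ℕ × ℕ => a p.1 * b p.2)).symm
    _ = ∑' p : ℕ × ℕ, a p.1 * b p.2 :=
        Finset.HasAntidiagonal.sigmaAntidiagonalEquivProd.tsum_eq (fun p : ℕ × ℕ => a p.1 * b p.2)
    _ = ∑' i, ∑' j, a i * b j := ENNReal.tsum_prod'
    _ = gc A t K * gc B t K := by
        simp only [ENNReal.tsum_mul_left, ENNReal.tsum_mul_right]; rfl

lemma gc_empty (t : ℝ) (K : Pt → Pt → ℝ) : gc (∅ : Set Pt) t K = 1 := by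
  refine (tsum_eq_single 0 fun n hn => ?_).trans ?_
  · have : Nonempty (Fin n) := ⟨⟨0, Nat.pos_of_ne_zero hn⟩⟩
    simp [cInt, univ_pi_empty]
  · have : (Set.univ.pi fun _ : Fin 0 => (∅ : Set Pt)) = Set.univ := by ext x; simp
    simp [cInt, this, wt, logW, volume_pi]

/-- Factorisation over a finite family of regions. -/
lemma gc_biUnion {γ : Type} (s : Finset γ) (A : γ → Set Pt) (hA : ∀ w, MeasurableSet (A w))
    (hd : ∀ w ∈ s, ∀ w' ∈ s, w ≠ w' → Disjoint (A w) (A w'))
    (t : ℝ) {K : Pt → Pt → ℝ} (hKm : Measurable (Function.uncurry K))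
    (hK : ∀ w ∈ s, ∀ w' ∈ s, w ≠ w' → ∀ p ∈ A w, ∀ q ∈ A w', K p q = 0) :
    gc (⋃ w ∈ s, A w) t K = ∏ w ∈ s, gc (A w) t K := by
  classical
  induction s using Finset.induction with
  | empty => simp [gc_empty]
  | @insert w s hw ih =>
    have hne : ∀ v ∈ s, w ≠ v := fun v hv h => hw (h ▸ hv)
    have hws : w ∈ insert w s := Finset.mem_insert_self w s
    rw [Finset.set_biUnion_insert, Finset.prod_insert hw,
      gc_union (hA w) (Finset.measurableSet_biUnion s fun v _ => hA v) ?_ t hKm ?_, ih ?_ ?_]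
    · intro v hv v' hv'; exact hd v (Finset.mem_insert_of_mem hv) v' (Finset.mem_insert_of_mem hv')
    · intro v hv v' hv'; exact hK v (Finset.mem_insert_of_mem hv) v' (Finset.mem_insert_of_mem hv')
    · simp only [disjoint_iUnion_right]
      exact fun v hv => hd w hws v (Finset.mem_insert_of_mem hv) (hne v hv)
    · intro p hp q hq
      simp only [mem_iUnion] at hq
      obtain ⟨v, hv, hqv⟩ := hq
      exact ⟨hK w hws v (Finset.mem_insert_of_mem hv) (hne v hv) p hp q hqv,
        hK v (Finset.mem_insert_of_mem hv) w hws (hne v hv).symm q hqv p hp⟩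

end

end Vale.Agent.P171
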